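import Vale.Agent.P134.H981.K1b
import Vale.Agent.P134.H239.M4Out
import Vale.Agent.P134.M4.Assembly

set_option linter.all false

/-! Statement `StC` of M4': steps 1.4 - 1.7. -/

namespace Vale.Agent.P134.H981

open Vale.Agent.P134 Vale.Agent.P134.SM Vale.Agent.P134.M4 Filter Topology MeasureTheory

variable {u : (Fin 4 → ℝ) → ℝ} {x : Fin 4 → ℝ}

lemma bl_eq (R : ℝ) : (bl R : Set (Fin 4 → ℝ)) = eb 4 R := rfl

/-- Linear growth of the curvature integral. -/
theorem cu_of (hu : Sol u) (hp : ∀ x, 0 < gs u x) (hE : E3 u) (hST : ST u) : CU u := by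
  obtain ⟨C, hC⟩ := hE
  obtain ⟨C₀, hC₀1, hC₀⟩ := exists_gs_ct 4
  refine ⟨C₀ * (8 * C), fun R hR => ?_⟩
  have hR0 : 0 < R := by linarith
  have h2R : (1:ℝ) ≤ 2 * R := by linarith
  have cgs : Continuous (gs u) := gs_cont (hu.c2.of_le (by norm_num))
  have cdn := dn_cont hu hp
  have cct := (ct_c1 (n := 4) R).continuous
  have hi : Integrable (fun x => gs u x * dn u x * ct R x ^ 2) :=
    ((cgs.mul cdn).mul (cct.pow 2)).integrable_of_hasCompactSupport (hcs_sq (ct_hcs hR0)).mul_left
  have h1 : ∫ x in bl R, gs u x * dn u x ≤ ∫ x, gs u x * dn u x * ct R x ^ 2 := by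
    calc ∫ x in bl R, gs u x * dn u x = ∫ x in bl R, gs u x * dn u x * ct R x ^ 2 := by
          refine setIntegral_congr_fun (meas_eb R) fun x hx => ?_
          show gs u x * dn u x = gs u x * dn u x * ct R x ^ 2
          rw [ct_one hR0 hx, one_pow, mul_one]
      _ ≤ _ := setIntegral_le_integral hi (Eventually.of_forall fun x =>
          mul_nonneg (mul_nonneg (gs_nonneg _ _) (dn_nonneg _ _)) (sq_nonneg _))
  refine h1.trans ((hST.1 (ct R) (ct_c1 R) (ct_hcs hR0)).trans ?_)
  have h2 : ∫ x, gs u x * gs (ct R) x ≤ ∫ x in eb 4 (2 * R), (C₀ / R ^ 2) * psi u x ^ 2 := by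
    refine int_le_eb (G := fun x => (C₀ / R ^ 2) * psi u x ^ 2)
      (continuous_const.mul (hu.psi_contDiff.continuous.pow 2)) ?_ ?_ ?_
    · refine (cgs.mul (gs_cont (ct_c1 R))).integrable_of_hasCompactSupport ?_
      refine HasCompactSupport.intro (isCompact_eb (2 * R)) fun x hx => ?_
      have : gs (ct R) x = 0 := by
        unfold gs
        exact Finset.sum_eq_zero fun k _ => by rw [pd_ct_zero hR0 hx]; ring
      show gs u x * gs (ct R) x = 0
      rw [this, mul_zero]
    · intro x hx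
      have : gs (ct R) x = 0 := by
        unfold gs
        exact Finset.sum_eq_zero fun k _ => by rw [pd_ct_zero hR0 hx]; ring
      rw [this, mul_zero]
    · intro x _
      have a1 := hC₀ R hR0 x
      have a2 := two_gs_le hu x
      have a3 := gs_nonneg u x
      have a4 : gs u x ≤ psi u x ^ 2 := by linarith
      calc gs u x * gs (ct R) x ≤ psi u x ^ 2 * (C₀ / R ^ 2) := by
            have := gs_nonneg (ct (n := 4) R) x
            gcongr
        _ = _ := mul_comm _ _
  refine h2.trans ?_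
  rw [integral_const_mul]
  have h3 := hC (2 * R) h2R
  calc (C₀ / R ^ 2) * ∫ x in eb 4 (2 * R), psi u x ^ 2 ≤ (C₀ / R ^ 2) * (C * (2 * R) ^ 3) := by
        gcongr; exact h3
    _ = C₀ * (8 * C) * R := by field_simp; ring

/-- Steps 1.4 - 1.7. -/
theorem stC : StC := by
  intro u hm hE' hS0 hST
  have hu := hm.toSol
  have hp := hm.gs_pos
  have hE := hE'.e3
  obtain ⟨⟨c1, h1⟩, ⟨c2, h2⟩, ⟨c3, h3⟩, -, -, h6⟩ :=
    Vale.Agent.P134.H239.d_estimates hu hm.abs_lt hE hST
  obtain ⟨c4, h4⟩ := cu_of hu hp hE hST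
  obtain ⟨c5, h5⟩ := hE'
  obtain ⟨C, hC⟩ : ∃ C : ℝ, C = max 1 (max c1 (max c2 (max c3 (max c4 c5)))) := ⟨_, rfl⟩
  have hC1 : 1 ≤ C := by rw [hC]; exact le_max_left _ _
  have l1 : c1 ≤ C := by rw [hC]; simp
  have l2 : c2 ≤ C := by rw [hC]; simp
  have l3 : c3 ≤ C := by rw [hC]; simp
  have l4 : c4 ≤ C := by rw [hC]; simp
  have l5 : c5 ≤ C := by rw [hC]; simp
  have hK : K7 u C :=
    { sol := hu
      pos := hp
      C1 := hC1
      en := fun r hr => by
        have := h5 0 r hr
        simp only [add_zero] at this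
        refine this.trans ?_
        gcongr
      st := fun r hr => by
        have := h4 r hr
        simp_rw [wn_sq]
        refine this.trans ?_
        gcongr
      de := fun r hr => (h2 r hr).trans (by gcongr)
      dg := fun r hr => (h3 r hr).trans (by gcongr)
      mono := hm.pos
      en' := fun y r hr => (h5 y r hr).trans (by gcongr)
      ps := fun r hr => (h1 r hr).trans (by gcongr) }
  exact k1_of hK hS0 h6

end Vale.Agent.P134.H981
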