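import Vale.Agent.P134.H981.Star

set_option linter.all false

/-! Covering lemmas: finite covers and the thin cylinder. -/

namespace Vale.Agent.P134.H981

open Vale.Agent.P134 Vale.Agent.P134.SM Filter Topology MeasureTheory

variable {n : ℕ} {u f g : (Fin n → ℝ) → ℝ} {x : Fin n → ℝ}

lemma cover_le {ι : Type*} {T : Set (Fin n → ℝ)} (hT : MeasurableSet T) (hg : IntegrableOn g T)
    (hg0 : ∀ x, 0 ≤ g x) (s : Finset ι) (S : ι → Set (Fin n → ℝ))
    (hS : ∀ i ∈ s, MeasurableSet (S i)) (hcov : ∀ x ∈ T, ∃ i ∈ s, x ∈ S i) :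
    ∫ x in T, g x ≤ ∑ i ∈ s, ∫ x in T ∩ S i, g x := by
  have h1 : ∀ i ∈ s, ∫ x in T ∩ S i, g x = ∫ x in T, (S i).indicator g x := by
    intro i hi
    rw [setIntegral_indicator (hS i hi)]
  rw [Finset.sum_congr rfl h1, ← integral_finsetSum _ fun i hi => hg.indicator (hS i hi)]
  refine setIntegral_mono_on hg (integrable_finsetSum _ fun i hi => hg.indicator (hS i hi)) hT ?_
  intro x hx
  obtain ⟨i, hi, hxi⟩ := hcov x hx
  calc g x = (S i).indicator g x := (Set.indicator_of_mem hxi g).symm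
    _ ≤ ∑ i ∈ s, (S i).indicator g x :=
      Finset.single_le_sum (f := fun i => (S i).indicator g x)
        (fun j _ => Set.indicator_nonneg (fun y _ => hg0 y) x) hi

/-- Integral over a translated ball. -/
lemma int_shift (g : (Fin n → ℝ) → ℝ) (y : Fin n → ℝ) (r : ℝ) :
    ∫ x in {x | x - y ∈ eb n r}, g x = ∫ x in eb n r, g (x + y) := by
  have hm : MeasurableSet {x : Fin n → ℝ | x - y ∈ eb n r} :=
    (measurable_id.sub_const y) (meas_eb r)
  rw [← integral_indicator hm, ← integral_indicator (meas_eb r),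
    ← integral_add_right_eq_self _ y]
  congr 1
  ext x
  by_cases hx : x ∈ eb n r
  · rw [Set.indicator_of_mem hx, Set.indicator_of_mem]
    simpa using hx
  · rw [Set.indicator_of_notMem hx, Set.indicator_of_notMem]
    simpa using hx

/-- Mass of the thin cylinder. -/
lemma cyl_le {g : (Fin 4 → ℝ) → ℝ} (hg : Continuous g) (hg0 : ∀ x, 0 ≤ g x) {C : ℝ} (hC : 0 ≤ C)
    (hE : ∀ (y : Fin 4 → ℝ) (r : ℝ), 1 ≤ r → ∫ x in eb 4 r, g (x + y) ≤ C * r ^ 3)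
    {ϱ R : ℝ} (hϱ : 0 < ϱ) (hϱ1 : ϱ ≤ 1) (hR0 : 0 < R) (hR : 1 ≤ 2 * ϱ * R) :
    ∫ x in eb 4 R ∩ {x | x 0 ^ 2 + x 1 ^ 2 + x 2 ^ 2 < (ϱ * R) ^ 2}, g x
      ≤ 24 * C * ϱ ^ 2 * R ^ 3 := by
  set T : Set (Fin 4 → ℝ) := eb 4 R ∩ {x | x 0 ^ 2 + x 1 ^ 2 + x 2 ^ 2 < (ϱ * R) ^ 2} with hTd
  have hT : MeasurableSet T := by
    refine (meas_eb R).inter (measurableSet_lt ?_ measurable_const)
    exact (by fun_prop : Continuous fun x : Fin 4 → ℝ => x 0 ^ 2 + x 1 ^ 2 + x 2 ^ 2).measurable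
  set M : ℕ := ⌊2 / ϱ⌋₊ with hM
  let y : ℕ → (Fin 4 → ℝ) := fun j => Pi.single 3 (-R + j * (ϱ * R))
  let S : ℕ → Set (Fin 4 → ℝ) := fun j => {x | x - y j ∈ eb 4 (2 * ϱ * R)}
  have hS : ∀ j, MeasurableSet (S j) := fun j => (measurable_id.sub_const (y j)) (meas_eb _)
  have hgi : IntegrableOn g T := (int_on_eb hg R).mono_set Set.inter_subset_left
  have hϱR : 0 < ϱ * R := by positivity
  have hcov : ∀ x ∈ T, ∃ j ∈ Finset.range (M + 1), x ∈ S j := by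
    intro x hx
    have h1 : rho Finset.univ x ≤ R ^ 2 := hx.1
    have h2 : x 0 ^ 2 + x 1 ^ 2 + x 2 ^ 2 < (ϱ * R) ^ 2 := hx.2
    have h3 : x 3 ^ 2 ≤ R ^ 2 := (sq_le_rho (Finset.mem_univ 3) x).trans h1
    have h4 := abs_le.mp (abs_le_of_sq_le_sq h3 hR0.le)
    set z : ℝ := (x 3 + R) / (ϱ * R) with hz
    have hz0 : 0 ≤ z := div_nonneg (by linarith [h4.1]) hϱR.le
    have hz1 : z ≤ 2 / ϱ := by
      rw [hz, div_le_div_iff₀ hϱR hϱ]
      nlinarith [h4.2]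
    refine ⟨⌊z⌋₊, ?_, ?_⟩
    · rw [Finset.mem_range, Nat.lt_succ_iff, hM]
      exact Nat.floor_le_floor hz1
    · have h5 := Nat.floor_le hz0
      have h6 := Nat.lt_floor_add_one z
      have h7 : x 3 = -R + z * (ϱ * R) := by rw [hz]; field_simp; ring
      change rho Finset.univ (x - y ⌊z⌋₊) ≤ (2 * ϱ * R) ^ 2
      have e : rho Finset.univ (x - y ⌊z⌋₊) = x 0 ^ 2 + x 1 ^ 2 + x 2 ^ 2
          + (x 3 - (-R + ⌊z⌋₊ * (ϱ * R))) ^ 2 := by
        unfold rho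
        rw [Fin.sum_univ_four]
        simp [y]
      rw [e]
      have h8 : x 3 - (-R + ⌊z⌋₊ * (ϱ * R)) = (z - ⌊z⌋₊) * (ϱ * R) := by rw [h7]; ring
      rw [h8]
      have h9 : (z - ⌊z⌋₊) ^ 2 ≤ 1 := by nlinarith
      have h10 : ((z - ⌊z⌋₊) * (ϱ * R)) ^ 2 ≤ 1 * (ϱ * R) ^ 2 := by
        rw [mul_pow]; gcongr
      nlinarith
  have key := cover_le hT hgi hg0 (Finset.range (M + 1)) S (fun j _ => hS j) hcov
  refine key.trans ?_
  have hb : ∀ j ∈ Finset.range (M + 1), ∫ x in T ∩ S j, g x ≤ C * (2 * ϱ * R) ^ 3 := by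
    intro j _
    have hSi : IntegrableOn g (S j) := by
      refine hg.continuousOn.integrableOn_compact ?_
      have : S j = (fun x => x - y j) ⁻¹' (eb 4 (2 * ϱ * R)) := rfl
      rw [this]
      exact (Homeomorph.subRight (y j)).isClosedEmbedding.isCompact_preimage (isCompact_eb _)
    calc ∫ x in T ∩ S j, g x ≤ ∫ x in S j, g x :=
          setIntegral_mono_set hSi (Eventually.of_forall fun x => hg0 x)
            (Eventually.of_forall fun x hx => hx.2)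
      _ = ∫ x in eb 4 (2 * ϱ * R), g (x + y j) := int_shift g (y j) _
      _ ≤ C * (2 * ϱ * R) ^ 3 := hE _ _ hR
  refine (Finset.sum_le_sum hb).trans ?_
  rw [Finset.sum_const, Finset.card_range, nsmul_eq_mul]
  have hM1 : ((M + 1 : ℕ) : ℝ) ≤ 3 / ϱ := by
    push_cast
    have := Nat.floor_le (show 0 ≤ 2 / ϱ by positivity)
    have h2 : 1 ≤ 1 / ϱ := by rw [le_div_iff₀ hϱ]; linarith
    have h3 : 3 / ϱ = 2 / ϱ + 1 / ϱ := by ring
    rw [h3]; exact add_le_add this h2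
  calc ((M + 1 : ℕ) : ℝ) * (C * (2 * ϱ * R) ^ 3) ≤ (3 / ϱ) * (C * (2 * ϱ * R) ^ 3) := by gcongr
    _ = 24 * C * ϱ ^ 2 * R ^ 3 := by field_simp; ring

end Vale.Agent.P134.H981
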