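import Vale.Agent.P134.SM.Ident
import Mathlib.Analysis.InnerProductSpace.PiL2
import Mathlib.Analysis.InnerProductSpace.Trace

set_option linter.all false

/-! Linear algebra for Step 4: a symmetric endomorphism of `ℝ⁴` killing a unit vector is controlled by
its values on two independent tangential vectors and its trace. -/

namespace Vale.Agent.P134.H981

open scoped InnerProductSpace

abbrev E4 := EuclideanSpace ℝ (Fin 4)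

lemma frob_indep (f : E4 →ₗ[ℝ] E4) (hf : f.IsSymmetric) (b c : OrthonormalBasis (Fin 4) ℝ E4) :
    ∑ i, ‖f (b i)‖ ^ 2 = ∑ i, ‖f (c i)‖ ^ 2 := by
  have h1 : ∀ i, ‖f (b i)‖ ^ 2 = ∑ j, ⟪c j, f (b i)⟫_ℝ ^ 2 := by
    intro i
    rw [← c.sum_sq_norm_inner_right (f (b i))]
    refine Finset.sum_congr rfl fun j _ => ?_
    rw [Real.norm_eq_abs, sq_abs]
  have h2 : ∀ j, ‖f (c j)‖ ^ 2 = ∑ i, ⟪b i, f (c j)⟫_ℝ ^ 2 := by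
    intro j
    rw [← b.sum_sq_norm_inner_right (f (c j))]
    refine Finset.sum_congr rfl fun i _ => ?_
    rw [Real.norm_eq_abs, sq_abs]
  rw [Finset.sum_congr rfl fun i _ => h1 i, Finset.sum_congr rfl fun i _ => h2 i, Finset.sum_comm]
  refine Finset.sum_congr rfl fun j _ => Finset.sum_congr rfl fun i _ => ?_
  have := hf (c j) (b i)
  rw [← this, real_inner_comm]

lemma abs_inner_sq_le (x y : E4) (hx : ‖x‖ = 1) : ⟪x, y⟫_ℝ ^ 2 ≤ ‖y‖ ^ 2 := by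
  have h := abs_real_inner_le_norm x y
  rw [hx, one_mul] at h
  calc ⟪x, y⟫_ℝ ^ 2 = |⟪x, y⟫_ℝ| ^ 2 := (sq_abs _).symm
    _ ≤ ‖y‖ ^ 2 := by gcongr

/-- core: in an orthonormal basis `b` with `f (b 3) = 0`. -/
lemma frob_basis (f : E4 →ₗ[ℝ] E4) (hf : f.IsSymmetric) (b : OrthonormalBasis (Fin 4) ℝ E4)
    (h3 : f (b 3) = 0) :
    ∑ i, ‖f (b i)‖ ^ 2 ≤ 5 * ‖f (b 0)‖ ^ 2 + 5 * ‖f (b 1)‖ ^ 2
      + 3 * (LinearMap.trace ℝ E4 f) ^ 2 := by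
  have hn : ∀ i, ‖b i‖ = 1 := fun i => b.orthonormal.1 i
  have h2 : ‖f (b 2)‖ ^ 2 = ⟪b 0, f (b 2)⟫_ℝ ^ 2 + ⟪b 1, f (b 2)⟫_ℝ ^ 2 + ⟪b 2, f (b 2)⟫_ℝ ^ 2
      + ⟪b 3, f (b 2)⟫_ℝ ^ 2 := by
    rw [← b.sum_sq_norm_inner_right (f (b 2)), Fin.sum_univ_four]
    simp only [Real.norm_eq_abs, sq_abs]
  have e3 : ⟪b 3, f (b 2)⟫_ℝ = 0 := by rw [← hf, h3, inner_zero_left]
  have e0 : ⟪b 0, f (b 2)⟫_ℝ ^ 2 ≤ ‖f (b 0)‖ ^ 2 := by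
    rw [← hf, real_inner_comm]; exact abs_inner_sq_le _ _ (hn 2)
  have e1 : ⟪b 1, f (b 2)⟫_ℝ ^ 2 ≤ ‖f (b 1)‖ ^ 2 := by
    rw [← hf, real_inner_comm]; exact abs_inner_sq_le _ _ (hn 2)
  have ht : LinearMap.trace ℝ E4 f = ⟪b 0, f (b 0)⟫_ℝ + ⟪b 1, f (b 1)⟫_ℝ + ⟪b 2, f (b 2)⟫_ℝ := by
    rw [f.trace_eq_sum_inner b, Fin.sum_univ_four, h3, inner_zero_right, add_zero]
  have f0 : ⟪b 0, f (b 0)⟫_ℝ ^ 2 ≤ ‖f (b 0)‖ ^ 2 := abs_inner_sq_le _ _ (hn 0)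
  have f1 : ⟪b 1, f (b 1)⟫_ℝ ^ 2 ≤ ‖f (b 1)‖ ^ 2 := abs_inner_sq_le _ _ (hn 1)
  have e2 : ⟪b 2, f (b 2)⟫_ℝ ^ 2 ≤ 3 * (LinearMap.trace ℝ E4 f) ^ 2 + 3 * ‖f (b 0)‖ ^ 2
      + 3 * ‖f (b 1)‖ ^ 2 := by
    have : ⟪b 2, f (b 2)⟫_ℝ = LinearMap.trace ℝ E4 f - ⟪b 0, f (b 0)⟫_ℝ - ⟪b 1, f (b 1)⟫_ℝ := by
      rw [ht]; ring
    rw [this]
    nlinarith [sq_nonneg (LinearMap.trace ℝ E4 f + ⟪b 0, f (b 0)⟫_ℝ),
      sq_nonneg (LinearMap.trace ℝ E4 f + ⟪b 1, f (b 1)⟫_ℝ),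
      sq_nonneg (⟪b 0, f (b 0)⟫_ℝ - ⟪b 1, f (b 1)⟫_ℝ)]
  rw [Fin.sum_univ_four, h2, e3, h3]
  simp only [norm_zero]
  nlinarith

/-- A symmetric `f` killing the unit vector `ν` is controlled by `f p`, `f y` and the trace, if
`p, y ⟂ ν` have Gram determinant at least `c`. -/
lemma frob_le (f : E4 →ₗ[ℝ] E4) (hf : f.IsSymmetric) {ν p y : E4} (hν : ‖ν‖ = 1) (hfν : f ν = 0)
    (hp : ⟪ν, p⟫_ℝ = 0) (hy : ⟪ν, y⟫_ℝ = 0) {c K : ℝ} (hc : 0 < c) (hK : 1 ≤ K) (hp1 : ‖p‖ ^ 2 ≤ 1)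
    (hy1 : ‖y‖ ^ 2 ≤ K) (hG : c ≤ ‖p‖ ^ 2 * ‖y‖ ^ 2 - ⟪p, y⟫_ℝ ^ 2)
    (b₀ : OrthonormalBasis (Fin 4) ℝ E4) :
    ∑ i, ‖f (b₀ i)‖ ^ 2 ≤ (5 * K / c + 10 * K ^ 2 / c ^ 2) * ‖f p‖ ^ 2 + (10 / c) * ‖f y‖ ^ 2
      + 3 * (LinearMap.trace ℝ E4 f) ^ 2 := by
  have hpp : c / K ≤ ‖p‖ ^ 2 := by
    rw [div_le_iff₀ (by linarith)]
    nlinarith [sq_nonneg (⟪p, y⟫_ℝ), sq_nonneg ‖p‖]
  have hcK : 0 < c / K := by positivity
  have hp0 : 0 < ‖p‖ := by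
    rcases eq_or_lt_of_le (norm_nonneg p) with h | h
    · rw [← h] at hpp; norm_num at hpp; linarith
    · exact h
  set e1 : E4 := ‖p‖⁻¹ • p with he1
  have n1 : ‖e1‖ = 1 := by
    rw [he1, norm_smul, norm_inv, norm_norm, inv_mul_cancel₀ hp0.ne']
  set z : E4 := y - ⟪e1, y⟫_ℝ • e1 with hz
  have hze : ⟪e1, z⟫_ℝ = 0 := by
    rw [hz, inner_sub_right, inner_smul_right, real_inner_self_eq_norm_sq, n1]; ring
  have hzn : ‖z‖ ^ 2 = ‖y‖ ^ 2 - ⟪e1, y⟫_ℝ ^ 2 := by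
    rw [hz, norm_sub_sq_real, norm_smul, n1, inner_smul_right, real_inner_comm e1 y,
      Real.norm_eq_abs, mul_one, sq_abs]
    ring
  have he1y : ⟪e1, y⟫_ℝ = ‖p‖⁻¹ * ⟪p, y⟫_ℝ := by rw [he1, real_inner_smul_left]
  have hzn2 : c ≤ ‖z‖ ^ 2 := by
    rw [hzn, he1y]
    have h1 : ‖p‖ ^ 2 * (‖y‖ ^ 2 - (‖p‖⁻¹ * ⟪p, y⟫_ℝ) ^ 2) = ‖p‖ ^ 2 * ‖y‖ ^ 2 - ⟪p, y⟫_ℝ ^ 2 := by
      field_simp
    have h2 : c ≤ ‖p‖ ^ 2 * (‖y‖ ^ 2 - (‖p‖⁻¹ * ⟪p, y⟫_ℝ) ^ 2) := by rw [h1]; exact hG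
    have h3 : 0 ≤ ‖y‖ ^ 2 - (‖p‖⁻¹ * ⟪p, y⟫_ℝ) ^ 2 := by
      by_contra hneg
      push Not at hneg
      nlinarith [sq_nonneg ‖p‖]
    nlinarith
  have hz0 : 0 < ‖z‖ := by
    rcases eq_or_lt_of_le (norm_nonneg z) with h | h
    · rw [← h] at hzn2; norm_num at hzn2; linarith
    · exact h
  set e2 : E4 := ‖z‖⁻¹ • z with he2
  have n2 : ‖e2‖ = 1 := by
    rw [he2, norm_smul, norm_inv, norm_norm, inv_mul_cancel₀ hz0.ne']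
  have o12 : ⟪e1, e2⟫_ℝ = 0 := by rw [he2, inner_smul_right, hze, mul_zero]
  have o1ν : ⟪e1, ν⟫_ℝ = 0 := by rw [he1, real_inner_smul_left, real_inner_comm, hp, mul_zero]
  have o2ν : ⟪e2, ν⟫_ℝ = 0 := by
    have hyν : ⟪y, ν⟫_ℝ = 0 := by rw [real_inner_comm]; exact hy
    have hzν : ⟪z, ν⟫_ℝ = 0 := by
      rw [hz, inner_sub_left, hyν, real_inner_smul_left, o1ν]; ring
    rw [he2, real_inner_smul_left, hzν, mul_zero]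
  -- extend
  let v : Fin 4 → E4 := ![e1, e2, 0, ν]
  let s : Set (Fin 4) := {0, 1, 3}
  have hon : Orthonormal ℝ (s.domRestrict v) := by
    constructor
    · rintro ⟨i, hi⟩
      simp only [s, Set.mem_insert_iff, Set.mem_singleton_iff] at hi
      rcases hi with rfl | rfl | rfl
      · exact n1
      · exact n2
      · exact hν
    · rintro ⟨i, hi⟩ ⟨j, hj⟩ hij
      simp only [s, Set.mem_insert_iff, Set.mem_singleton_iff] at hi hj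
      rcases hi with rfl | rfl | rfl <;> rcases hj with rfl | rfl | rfl
      · exact absurd rfl hij
      · exact o12
      · exact o1ν
      · change ⟪e2, e1⟫_ℝ = 0
        rw [real_inner_comm]; exact o12
      · exact absurd rfl hij
      · exact o2ν
      · change ⟪ν, e1⟫_ℝ = 0
        rw [real_inner_comm]; exact o1ν
      · change ⟪ν, e2⟫_ℝ = 0
        rw [real_inner_comm]; exact o2ν
      · exact absurd rfl hij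
  obtain ⟨b, hb⟩ := Orthonormal.exists_orthonormalBasis_extension_of_card_eq (𝕜 := ℝ) (E := E4)
    (by simp) hon
  have b0 : b 0 = e1 := hb 0 (by simp [s])
  have b1 : b 1 = e2 := hb 1 (by simp [s])
  have b3 : b 3 = ν := hb 3 (by simp [s])
  have key := frob_basis f hf b (by rw [b3, hfν])
  rw [frob_indep f hf b₀ b]
  refine key.trans ?_
  rw [b0, b1]
  have k1 : ‖f e1‖ ^ 2 ≤ (K / c) * ‖f p‖ ^ 2 := by
    have : ‖f e1‖ = ‖p‖⁻¹ * ‖f p‖ := by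
      rw [he1, map_smul, norm_smul, norm_inv, norm_norm]
    rw [this, mul_pow, inv_pow]
    have h4 : (‖p‖ ^ 2)⁻¹ ≤ K / c := by
      rw [← inv_div]
      exact inv_anti₀ hcK hpp
    exact mul_le_mul_of_nonneg_right h4 (sq_nonneg _)
  have k2 : ‖f e2‖ ^ 2 ≤ (1 / c) * (2 * ‖f y‖ ^ 2 + 2 * K * ‖f e1‖ ^ 2) := by
    have h5 : ‖f e2‖ = ‖z‖⁻¹ * ‖f z‖ := by
      rw [he2, map_smul, norm_smul, norm_inv, norm_norm]
    have h6 : ‖f z‖ ≤ ‖f y‖ + |⟪e1, y⟫_ℝ| * ‖f e1‖ := by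
      rw [hz, map_sub, map_smul]
      refine (norm_sub_le _ _).trans ?_
      rw [norm_smul, Real.norm_eq_abs]
    have h7 : |⟪e1, y⟫_ℝ| ^ 2 ≤ K := by
      rw [sq_abs]
      exact (abs_inner_sq_le e1 y n1).trans hy1
    have h8 : ‖f z‖ ^ 2 ≤ 2 * ‖f y‖ ^ 2 + 2 * K * ‖f e1‖ ^ 2 := by
      have h9 : ‖f z‖ ^ 2 ≤ (‖f y‖ + |⟪e1, y⟫_ℝ| * ‖f e1‖) ^ 2 := by gcongr
      have h10 : (|⟪e1, y⟫_ℝ| * ‖f e1‖) ^ 2 ≤ K * ‖f e1‖ ^ 2 := by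
        rw [mul_pow]; exact mul_le_mul_of_nonneg_right h7 (sq_nonneg _)
      nlinarith [sq_nonneg (‖f y‖ - |⟪e1, y⟫_ℝ| * ‖f e1‖)]
    rw [h5, mul_pow, inv_pow]
    have h11 : (‖z‖ ^ 2)⁻¹ ≤ 1 / c := by
      rw [one_div]; exact inv_anti₀ hc hzn2
    exact mul_le_mul h11 h8 (sq_nonneg _) (by positivity)
  have k3 : ‖f e2‖ ^ 2 ≤ (1 / c) * (2 * ‖f y‖ ^ 2 + 2 * K * ((K / c) * ‖f p‖ ^ 2)) := by
    refine k2.trans (mul_le_mul_of_nonneg_left ?_ (by positivity))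
    have : 2 * K * ‖f e1‖ ^ 2 ≤ 2 * K * ((K / c) * ‖f p‖ ^ 2) :=
      mul_le_mul_of_nonneg_left k1 (by positivity)
    linarith
  calc 5 * ‖f e1‖ ^ 2 + 5 * ‖f e2‖ ^ 2 + 3 * (LinearMap.trace ℝ E4 f) ^ 2
      ≤ 5 * ((K / c) * ‖f p‖ ^ 2) + 5 * ((1 / c) * (2 * ‖f y‖ ^ 2 + 2 * K * ((K / c) * ‖f p‖ ^ 2)))
        + 3 * (LinearMap.trace ℝ E4 f) ^ 2 := by gcongr
    _ = _ := by field_simp; ring

/-- Coordinate version of `frob_le`. -/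
lemma mat_le (A : Fin 4 → Fin 4 → ℝ) (hA : ∀ i j, A i j = A j i) {ν p y : Fin 4 → ℝ}
    (hν : ∑ i, ν i ^ 2 = 1) (hAν : ∀ i, ∑ j, A i j * ν j = 0)
    (hp : ∑ i, ν i * p i = 0) (hy : ∑ i, ν i * y i = 0) {c K : ℝ} (hc : 0 < c) (hK : 1 ≤ K)
    (hp1 : ∑ i, p i ^ 2 ≤ 1) (hy1 : ∑ i, y i ^ 2 ≤ K)
    (hG : c ≤ (∑ i, p i ^ 2) * (∑ i, y i ^ 2) - (∑ i, p i * y i) ^ 2) :
    ∑ i, ∑ j, A i j ^ 2 ≤ (5 * K / c + 10 * K ^ 2 / c ^ 2) * (∑ i, (∑ j, A i j * p j) ^ 2)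
      + (10 / c) * (∑ i, (∑ j, A i j * y j) ^ 2) + 3 * (∑ i, A i i) ^ 2 := by
  let f : E4 →ₗ[ℝ] E4 := Matrix.toEuclideanLin (Matrix.of A)
  have hfa : ∀ (v : E4) i, (f v) i = ∑ j, A i j * v j := by
    intro v i
    simp [f, Matrix.toLpLin_apply, Matrix.mulVec, dotProduct]
  have hin : ∀ v w : E4, ⟪v, w⟫_ℝ = ∑ i, v i * w i := by
    intro v w
    rw [PiLp.inner_apply]
    refine Finset.sum_congr rfl fun i _ => ?_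
    simp [mul_comm]
  have hnm : ∀ v : E4, ‖v‖ ^ 2 = ∑ i, v i ^ 2 := by
    intro v
    rw [EuclideanSpace.norm_sq_eq]
    simp
  have hsym : f.IsSymmetric := by
    intro v w
    rw [hin, hin]
    simp_rw [hfa, Finset.sum_mul, Finset.mul_sum]
    rw [Finset.sum_comm]
    refine Finset.sum_congr rfl fun i _ => Finset.sum_congr rfl fun j _ => ?_
    rw [hA j i]; ring
  let ν' : E4 := WithLp.toLp 2 ν
  let p' : E4 := WithLp.toLp 2 p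
  let y' : E4 := WithLp.toLp 2 y
  let b₀ := EuclideanSpace.basisFun (Fin 4) ℝ
  have hνn : ‖ν'‖ = 1 := by
    have : ‖ν'‖ ^ 2 = 1 := by rw [hnm]; exact hν
    have h0 := norm_nonneg ν'
    nlinarith
  have hfν : f ν' = 0 := by
    ext i
    rw [hfa]
    exact hAν i
  have key := frob_le f hsym (ν := ν') (p := p') (y := y') hνn hfν
    (by rw [hin]; exact hp) (by rw [hin]; exact hy) hc hK (by rw [hnm]; exact hp1)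
    (by rw [hnm]; exact hy1) (by rw [hnm, hnm, hin]; exact hG) b₀
  have e1 : ∑ i, ‖f (b₀ i)‖ ^ 2 = ∑ i, ∑ j, A i j ^ 2 := by
    refine Finset.sum_congr rfl fun i _ => ?_
    rw [hnm]
    refine Finset.sum_congr rfl fun j _ => ?_
    rw [hfa]
    simp only [b₀, EuclideanSpace.basisFun_apply]
    simp [PiLp.single_apply, hA i j]
  have e2 : LinearMap.trace ℝ E4 f = ∑ i, A i i := by
    rw [f.trace_eq_sum_inner b₀]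
    refine Finset.sum_congr rfl fun i _ => ?_
    simp only [b₀, EuclideanSpace.basisFun_apply]
    rw [hin]
    simp [hfa]
  rw [e1, e2, hnm, hnm] at key
  simp_rw [hfa] at key
  exact key

end Vale.Agent.P134.H981
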