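import Vale.Agent.P134.SM.Nu2
import Vale.Agent.P134.H981.Lin

set_option linter.all false

/-! Pointwise bound of `|∇ν|` (Step 4 / 1.7): in `ℝ⁴`, at points where `ν·a` and `x·ν/R` are small and
`x` is far from the `a`-axis, `|∇ν|` is controlled by `|∇τ_a|`, `|∇(κ/R)|` and `|∇D|/w²`. -/

namespace Vale.Agent.P134.H981

open Vale.Agent.P134 Vale.Agent.P134.SM

variable {u : (Fin 4 → ℝ) → ℝ} {x : Fin 4 → ℝ}

/-- orthogonal decomposition: if `v = t + c ν`, `t ⟂ ν`, then `|t|² ≤ |v|²`. -/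
lemma tang_le {ν t v : Fin 4 → ℝ} {c : ℝ} (hν : ∑ i, ν i ^ 2 = 1) (ht : ∑ i, ν i * t i = 0)
    (hv : ∀ i, v i = t i + c * ν i) : ∑ i, t i ^ 2 ≤ ∑ i, v i ^ 2 := by
  have : ∑ i, v i ^ 2 = ∑ i, t i ^ 2 + c ^ 2 := by
    have e : ∀ i, v i ^ 2 = t i ^ 2 + 2 * c * (ν i * t i) + c ^ 2 * ν i ^ 2 := by
      intro i; rw [hv i]; ring
    rw [Finset.sum_congr rfl fun i _ => e i, Finset.sum_add_distrib, Finset.sum_add_distrib,
      ← Finset.mul_sum, ← Finset.mul_sum, ht, hν]; ring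
  nlinarith [sq_nonneg c]

/-- main pointwise bound -/
lemma dn_le (hu : Sol u) (h : 0 < gs u x) {a : Fin 4 → ℝ} (ha : ∑ i, a i ^ 2 = 1) {R : ℝ}
    (hR : 0 < R) {κ : (Fin 4 → ℝ) → ℝ} {b : ℝ} (hκ : ∀ k, pd k κ x = pd k (vs u) x - b * nu u k x)
    {c K : ℝ} (hc : 0 < c) (hK : 1 ≤ K) (hx : ∑ i, x i ^ 2 ≤ K * R ^ 2)
    (hG : c * R ^ 2 ≤ (1 - tau a u x ^ 2) * (∑ i, x i ^ 2 - vs u x ^ 2)
      - (∑ i, a i * x i - tau a u x * vs u x) ^ 2) :
    dn u x ≤ (5 * K / c + 10 * K ^ 2 / c ^ 2) * gs (tau a u) x + (10 / c) * (gs κ x / R ^ 2)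
      + gs (defi u) x / wn u x ^ 4 := by
  have hν := sum_nu_sq h
  have hw := wn_pos h
  have hτ : ∑ i, nu u i x * a i = tau a u x := by
    unfold tau dd nu
    rw [Finset.sum_div]
    refine Finset.sum_congr rfl fun i _ => ?_
    ring
  have hvs : ∑ i, nu u i x * x i = vs u x := by
    unfold vs rd nu
    rw [Finset.sum_div]
    refine Finset.sum_congr rfl fun i _ => ?_
    ring
  set τ := tau a u x with hτd
  set σ := vs u x with hσ
  -- the tangential vectors
  let p : Fin 4 → ℝ := fun i => a i - τ * nu u i x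
  let y : Fin 4 → ℝ := fun i => (x i - σ * nu u i x) / R
  have hp : ∑ i, nu u i x * p i = 0 := by
    have e : ∀ i, nu u i x * p i = nu u i x * a i - τ * nu u i x ^ 2 := by intro i; simp [p]; ring
    rw [Finset.sum_congr rfl fun i _ => e i, Finset.sum_sub_distrib, ← Finset.mul_sum, hν, hτ]; ring
  have hy : ∑ i, nu u i x * y i = 0 := by
    have e : ∀ i, nu u i x * y i = (nu u i x * x i - σ * nu u i x ^ 2) / R := by
      intro i; simp [y]; ring
    rw [Finset.sum_congr rfl fun i _ => e i, ← Finset.sum_div, Finset.sum_sub_distrib,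
      ← Finset.mul_sum, hν, hvs]; ring
  have hpn : ∑ i, p i ^ 2 = 1 - τ ^ 2 := by
    have e : ∀ i, p i ^ 2 = a i ^ 2 - 2 * τ * (nu u i x * a i) + τ ^ 2 * nu u i x ^ 2 := by
      intro i; simp [p]; ring
    rw [Finset.sum_congr rfl fun i _ => e i, Finset.sum_add_distrib, Finset.sum_sub_distrib,
      ← Finset.mul_sum, ← Finset.mul_sum, hν, hτ, ha]; ring
  have hyn : ∑ i, y i ^ 2 = (∑ i, x i ^ 2 - σ ^ 2) / R ^ 2 := by
    have e : ∀ i, y i ^ 2 = (x i ^ 2 - 2 * σ * (nu u i x * x i) + σ ^ 2 * nu u i x ^ 2) / R ^ 2 := by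
      intro i; simp only [y]; field_simp; ring
    rw [Finset.sum_congr rfl fun i _ => e i, ← Finset.sum_div, Finset.sum_add_distrib,
      Finset.sum_sub_distrib, ← Finset.mul_sum, ← Finset.mul_sum, hν, hvs]; ring
  have hpy : ∑ i, p i * y i = (∑ i, a i * x i - τ * σ) / R := by
    have e : ∀ i, p i * y i = (a i * x i - σ * (nu u i x * a i) - τ * (nu u i x * x i)
        + τ * σ * nu u i x ^ 2) / R := by
      intro i; simp only [p, y]; field_simp; ring
    rw [Finset.sum_congr rfl fun i _ => e i, ← Finset.sum_div, Finset.sum_add_distrib,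
      Finset.sum_sub_distrib, Finset.sum_sub_distrib, ← Finset.mul_sum, ← Finset.mul_sum,
      ← Finset.mul_sum, hν, hvs, hτ]; ring
  have hR2 : 0 < R ^ 2 := by positivity
  have key := mat_le (fun i j => sff u i j x) (fun i j => Sol.sff_symm hu h i j) (ν := fun i => nu u i x)
    (p := p) (y := y) hν (fun i => Sol.sff_nu hu h i) hp hy hc hK
    (by rw [hpn]; nlinarith [sq_nonneg τ])
    (by
      rw [hyn, div_le_iff₀ hR2]; nlinarith [sq_nonneg σ])
    (by
      rw [hpn, hyn, hpy, div_pow]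
      have : c ≤ ((1 - τ ^ 2) * (∑ i, x i ^ 2 - σ ^ 2) - (∑ i, a i * x i - τ * σ) ^ 2) / R ^ 2 := by
        rw [le_div_iff₀ hR2]; exact hG
      refine this.trans (le_of_eq ?_)
      ring)
  -- `A p`, `A y`
  have hsn : ∀ i, ∑ j, sff u i j x * nu u j x = 0 := fun i => Sol.sff_nu hu h i
  have hAp : ∀ i, ∑ j, sff u i j x * p j = ∑ j, a j * sff u j i x := by
    intro i
    have e : ∀ j, sff u i j x * p j = a j * sff u j i x - τ * (sff u i j x * nu u j x) := by
      intro j; rw [Sol.sff_symm hu h j i]; simp [p]; ring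
    rw [Finset.sum_congr rfl fun j _ => e j, Finset.sum_sub_distrib, ← Finset.mul_sum, hsn]; ring
  have hAy : ∀ i, ∑ j, sff u i j x * y j = (∑ j, x j * sff u j i x) / R := by
    intro i
    have e : ∀ j, sff u i j x * y j = (x j * sff u j i x - σ * (sff u i j x * nu u j x)) / R := by
      intro j; rw [Sol.sff_symm hu h j i]; simp only [y]; ring
    rw [Finset.sum_congr rfl fun j _ => e j, ← Finset.sum_div, Finset.sum_sub_distrib,
      ← Finset.mul_sum, hsn]; ring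
  have hperp : ∀ v : Fin 4 → ℝ, ∑ i, nu u i x * (∑ j, v j * sff u j i x) = 0 := by
    intro v
    simp_rw [Finset.mul_sum]
    rw [Finset.sum_comm]
    refine Finset.sum_eq_zero fun j _ => ?_
    have : ∑ i, nu u i x * (v j * sff u j i x) = v j * ∑ i, sff u j i x * nu u i x := by
      rw [Finset.mul_sum]; refine Finset.sum_congr rfl fun i _ => ?_; ring
    rw [this, hsn, mul_zero]
  have hAp2 : ∑ i, (∑ j, sff u i j x * p j) ^ 2 ≤ gs (tau a u) x := by
    simp_rw [hAp]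
    unfold gs
    exact tang_le (ν := fun i => nu u i x) (c := ∑ i, a i * nd u (nu u i) x) hν (hperp a)
      (fun i => Sol.pd_tau_eq hu h a i)
  have hAy2 : ∑ i, (∑ j, sff u i j x * y j) ^ 2 ≤ gs κ x / R ^ 2 := by
    simp_rw [hAy, div_pow]
    rw [← Finset.sum_div]
    refine div_le_div_of_nonneg_right ?_ hR2.le
    unfold gs
    refine tang_le (ν := fun i => nu u i x) (c := 1 - b + ∑ i, x i * nd u (nu u i) x) hν (hperp x) ?_
    intro i
    rw [hκ, Sol.pd_vs_eq hu h i]; ring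
  have htr : (∑ i, sff u i i x) ^ 2 = mc u x ^ 2 := by rw [Sol.mc_eq hu h]
  have hdn := Sol.dn_eq hu h
  have hgd := Sol.gs_defi_eq hu h
  have hw4 : 0 < wn u x ^ 4 := by positivity
  have hgd' : gs (defi u) x / wn u x ^ 4 = 4 * (tl u x + mc u x ^ 2) := by
    rw [hgd]; field_simp
  have htl := tl_nonneg u x
  have han : an u x = ∑ i, ∑ j, sff u i j x ^ 2 := rfl
  rw [hdn, hgd', han]
  rw [htr] at key
  have k1 : (5 * K / c + 10 * K ^ 2 / c ^ 2) * (∑ i, (∑ j, sff u i j x * p j) ^ 2)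
      ≤ (5 * K / c + 10 * K ^ 2 / c ^ 2) * gs (tau a u) x :=
    mul_le_mul_of_nonneg_left hAp2 (by positivity)
  have k2 : (10 / c) * (∑ i, (∑ j, sff u i j x * y j) ^ 2) ≤ (10 / c) * (gs κ x / R ^ 2) :=
    mul_le_mul_of_nonneg_left hAy2 (by positivity)
  nlinarith [sq_nonneg (mc u x)]

end Vale.Agent.P134.H981
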