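import Vale.Agent.P134.H981.Cover
import Vale.Agent.P134.H981.Geo

set_option linter.all false

/-! Step 1.7: (K1'). -/

namespace Vale.Agent.P134.H981

open Vale.Agent.P134 Vale.Agent.P134.SM Filter Topology MeasureTheory

variable {u : (Fin 4 → ℝ) → ℝ} {x : Fin 4 → ℝ}

lemma piece {n : ℕ} {f g : (Fin n → ℝ) → ℝ} {R : ℝ} {S : Set (Fin n → ℝ)} (hS : S ⊆ eb n R)
    (hf : Continuous f) (hg : Continuous g) {X Y k : ℝ} (hX0 : 0 ≤ X) (hY0 : 0 ≤ Y) (hk : 0 ≤ k)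
    (hX : ∫ x in S, f x ^ 2 ≤ X) (hY : ∫ x in S, g x ^ 2 ≤ Y) (hXY : X * Y ≤ (k * R ^ 2) ^ 2) :
    ∫ x in S, |f x| * |g x| ≤ k * R ^ 2 := by
  have h1 := cs_eb hf hg hS (Real.sqrt_nonneg X) (Real.sqrt_nonneg Y)
    (by rw [Real.sq_sqrt hX0]; exact hX) (by rw [Real.sq_sqrt hY0]; exact hY)
  refine h1.trans ?_
  rw [← Real.sqrt_mul hX0]
  calc Real.sqrt (X * Y) ≤ Real.sqrt ((k * R ^ 2) ^ 2) := Real.sqrt_le_sqrt hXY
    _ = k * R ^ 2 := Real.sqrt_sq (by positivity)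

/-- `|d|` is bounded where `ψ > t`. -/
lemma dph_bound {t : ℝ} (ht : 0 < t) : ∃ M : ℝ, 0 ≤ M ∧ ∀ (u : (Fin 4 → ℝ) → ℝ), Sol u →
    ∀ x, t < psi u x → |dph u x| ≤ M := by
  refine ⟨(|Real.log 2| + |Real.log (t / 2)| + (|Real.log 2| + |Real.log (t / 2)|)) / Real.sqrt 2,
    by positivity, ?_⟩
  intro u hu x hx
  have h2 := abs_le.mp (hu.bd x)
  have h1 : t < (1 + u x) * (1 - u x) := by unfold psi at hx; nlinarith
  have a1 : t / 2 ≤ 1 + u x := by nlinarith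
  have a2 : t / 2 ≤ 1 - u x := by nlinarith
  have key : ∀ s : ℝ, t / 2 ≤ s → s ≤ 2 → |Real.log s| ≤ |Real.log 2| + |Real.log (t / 2)| := by
    intro s hs1 hs2
    have hs0 : 0 < s := by linarith
    have l1 := Real.log_le_log (by positivity) hs1
    have l2 := Real.log_le_log hs0 hs2
    rw [abs_le]
    constructor
    · have := neg_abs_le (Real.log (t / 2)); have := abs_nonneg (Real.log 2); linarith
    · have := le_abs_self (Real.log 2); have := abs_nonneg (Real.log (t / 2)); linarith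
  unfold dph
  rw [abs_div, abs_of_pos (show (0:ℝ) < Real.sqrt 2 by positivity)]
  refine div_le_div_of_nonneg_right ?_ (by positivity)
  exact (abs_sub _ _).trans (add_le_add (key _ a1 (by linarith)) (key _ a2 (by linarith)))

/-- pointwise bound on the good set. -/
lemma good_bound (hu : Sol u) (h : 0 < gs u x) {a : Fin 4 → ℝ} {K1 K2 R : ℝ} (hK1 : 0 ≤ K1)
    (hK2 : 0 ≤ K2) (hR : 0 < R)
    (hdn : dn u x ≤ K1 * gs (tau a u) x + K2 * (gs (kap u) x / R ^ 2) + gs (defi u) x / wn u x ^ 4)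
    (hψ : psi u x ≤ 2 * wn u x) :
    psi u x * wn u x * Real.sqrt (dn u x)
      ≤ Real.sqrt K1 * (|psi u x| * |wn u x * Real.sqrt (gs (tau a u) x)|)
        + (Real.sqrt K2 / R) * (|psi u x| * |wn u x * Real.sqrt (gs (kap u) x)|)
        + 2 * Real.sqrt (gs (defi u) x) := by
  have hw := wn_pos h
  have hψ0 := hu.psi_nonneg x
  set A := Real.sqrt (gs (tau a u) x) with hA
  set B := Real.sqrt (gs (kap u) x) with hB
  set E := Real.sqrt (gs (defi u) x) with hE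
  have hA0 : 0 ≤ A := Real.sqrt_nonneg _
  have hB0 : 0 ≤ B := Real.sqrt_nonneg _
  have hE0 : 0 ≤ E := Real.sqrt_nonneg _
  have hA2 : A ^ 2 = gs (tau a u) x := Real.sq_sqrt (gs_nonneg _ _)
  have hB2 : B ^ 2 = gs (kap u) x := Real.sq_sqrt (gs_nonneg _ _)
  have hE2 : E ^ 2 = gs (defi u) x := Real.sq_sqrt (gs_nonneg _ _)
  have k1 : Real.sqrt K1 ^ 2 = K1 := Real.sq_sqrt hK1
  have k2 : Real.sqrt K2 ^ 2 = K2 := Real.sq_sqrt hK2
  have k10 := Real.sqrt_nonneg K1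
  have k20 := Real.sqrt_nonneg K2
  have hs : Real.sqrt (dn u x) ≤ Real.sqrt K1 * A + Real.sqrt K2 * B / R + E / wn u x ^ 2 := by
    have hnn : 0 ≤ Real.sqrt K1 * A + Real.sqrt K2 * B / R + E / wn u x ^ 2 := by positivity
    rw [Real.sqrt_le_left hnn]
    have p1 : 0 ≤ Real.sqrt K1 * A * (Real.sqrt K2 * B / R) := by positivity
    have p2 : 0 ≤ Real.sqrt K1 * A * (E / wn u x ^ 2) := by positivity
    have p3 : 0 ≤ Real.sqrt K2 * B / R * (E / wn u x ^ 2) := by positivity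
    have e1 : (Real.sqrt K1 * A) ^ 2 = K1 * gs (tau a u) x := by rw [mul_pow, k1, hA2]
    have e2 : (Real.sqrt K2 * B / R) ^ 2 = K2 * (gs (kap u) x / R ^ 2) := by
      rw [div_pow, mul_pow, k2, hB2]; ring
    have e3 : (E / wn u x ^ 2) ^ 2 = gs (defi u) x / wn u x ^ 4 := by
      rw [div_pow, hE2]; ring
    nlinarith
  rw [abs_of_nonneg hψ0, abs_of_nonneg (show 0 ≤ wn u x * A by positivity),
    abs_of_nonneg (show 0 ≤ wn u x * B by positivity)]
  calc psi u x * wn u x * Real.sqrt (dn u x)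
      ≤ psi u x * wn u x * (Real.sqrt K1 * A + Real.sqrt K2 * B / R + E / wn u x ^ 2) := by gcongr
    _ = Real.sqrt K1 * (psi u x * (wn u x * A)) + (Real.sqrt K2 / R) * (psi u x * (wn u x * B))
        + (psi u x / wn u x) * E := by field_simp
    _ ≤ _ := by
      have : psi u x / wn u x ≤ 2 := by rw [div_le_iff₀ hw]; exact hψ
      gcongr

/-- Gram condition. -/
lemma gram_cond {τ σ R ϱ : ℝ} {x : Fin 4 → ℝ} (hR : 0 < R) (hϱ : 0 < ϱ) (hϱ1 : ϱ ≤ 1)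
    (hx : x 0 ^ 2 + x 1 ^ 2 + x 2 ^ 2 + x 3 ^ 2 ≤ R ^ 2)
    (hx' : (ϱ * R) ^ 2 ≤ x 0 ^ 2 + x 1 ^ 2 + x 2 ^ 2) (hτ0 : 0 ≤ τ) (hτ : τ ≤ ϱ / 4)
    (hσ : σ ^ 2 ≤ (ϱ / 4 * R / 2) ^ 2) :
    ϱ ^ 2 / 2 * R ^ 2 ≤ (1 - τ ^ 2) * ((x 0 ^ 2 + x 1 ^ 2 + x 2 ^ 2 + x 3 ^ 2) - σ ^ 2)
      - (x 3 - τ * σ) ^ 2 := by
  have e : (1 - τ ^ 2) * ((x 0 ^ 2 + x 1 ^ 2 + x 2 ^ 2 + x 3 ^ 2) - σ ^ 2) - (x 3 - τ * σ) ^ 2
      = (x 0 ^ 2 + x 1 ^ 2 + x 2 ^ 2) - σ ^ 2 - τ ^ 2 * (x 0 ^ 2 + x 1 ^ 2 + x 2 ^ 2 + x 3 ^ 2)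
        + 2 * (τ * σ) * x 3 := by ring
  rw [e]
  have h1 : τ ^ 2 ≤ ϱ ^ 2 / 16 := by nlinarith
  have h2 : τ ^ 2 * (x 0 ^ 2 + x 1 ^ 2 + x 2 ^ 2 + x 3 ^ 2) ≤ ϱ ^ 2 / 16 * R ^ 2 := by
    have : 0 ≤ x 0 ^ 2 + x 1 ^ 2 + x 2 ^ 2 + x 3 ^ 2 := by positivity
    gcongr
  have h3 : x 3 ^ 2 ≤ R ^ 2 := by nlinarith [sq_nonneg (x 0), sq_nonneg (x 1), sq_nonneg (x 2)]
  have h4 : (τ * σ) ^ 2 ≤ (ϱ ^ 2 / 16 * R) ^ 2 := by
    have : σ ^ 2 ≤ R ^ 2 * ϱ ^ 2 / 64 := by nlinarith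
    calc (τ * σ) ^ 2 = τ ^ 2 * σ ^ 2 := by ring
      _ ≤ (ϱ ^ 2 / 16) * (R ^ 2 * ϱ ^ 2 / 64) := by gcongr
      _ ≤ (ϱ ^ 2 / 16 * R) ^ 2 := by nlinarith [mul_pos (pow_pos hϱ 4) (pow_pos hR 2)]
  have h5 := abs_le.mp (abs_le_of_sq_le_sq h4 (by positivity))
  have h6 := abs_le.mp (abs_le_of_sq_le_sq h3 hR.le)
  have h7 : -(ϱ ^ 2 / 16 * R * R) ≤ (τ * σ) * x 3 := by
    have h8 : |(τ * σ) * x 3| ≤ (ϱ ^ 2 / 16 * R) * R := by
      rw [abs_mul]
      exact mul_le_mul (abs_le_of_sq_le_sq h4 (by positivity)) (abs_le_of_sq_le_sq h3 hR.le)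
        (abs_nonneg _) (by positivity)
    have := (abs_le.mp h8).1
    linarith
  nlinarith [mul_pos (pow_pos hϱ 2) (pow_pos hR 2)]

/-- Standing data for 1.7. -/
structure K7 (u : (Fin 4 → ℝ) → ℝ) (C : ℝ) : Prop extends KB u C where
  mono : ∀ x, 0 < pd 3 u x
  en' : ∀ (y : Fin 4 → ℝ) (r : ℝ), 1 ≤ r → ∫ x in eb 4 r, psi u (x + y) ^ 2 ≤ C * r ^ 3
  ps : ∀ r, 1 ≤ r → ∫ x in eb 4 r, psi u x ≤ C * r ^ 3

lemma sum_single_sq : ∑ i : Fin 4, (Pi.single 3 1 : Fin 4 → ℝ) i ^ 2 = 1 := by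
  rw [Fin.sum_univ_four]; simp

lemma tau3_pos (h : 0 < gs u x) (hm : 0 < pd 3 u x) : 0 < tau (Pi.single 3 1) u x := by
  have e : dd (Pi.single 3 1) u x = pd 3 u x := by
    unfold dd; rw [Fin.sum_univ_four]; simp
  unfold tau; rw [e]; exact div_pos hm (wn_pos h)

/-- The integrand of (K1'). -/
noncomputable def gK (u : (Fin 4 → ℝ) → ℝ) (x : Fin 4 → ℝ) : ℝ :=
  psi u x * wn u x * Real.sqrt (dn u x)

noncomputable def sN (u : (Fin 4 → ℝ) → ℝ) (x : Fin 4 → ℝ) : ℝ := wn u x * Real.sqrt (dn u x)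

lemma sN_cont (hu : Sol u) (hp : ∀ x, 0 < gs u x) : Continuous (sN u) := by
  have cw1 : ContDiff ℝ 1 (wn u) := by exact_mod_cast wn_cd hu hp 1
  exact cw1.continuous.mul (Real.continuous_sqrt.comp (dn_cont hu hp))

lemma sN_sq (u : (Fin 4 → ℝ) → ℝ) (x : Fin 4 → ℝ) : sN u x ^ 2 = wn u x ^ 2 * dn u x := by
  unfold sN; rw [mul_pow, Real.sq_sqrt (dn_nonneg u x)]

lemma gK_eq (hu : Sol u) (x : Fin 4 → ℝ) : gK u x = |psi u x| * |sN u x| := by
  have h1 : 0 ≤ sN u x := mul_nonneg (wn_nonneg u x) (Real.sqrt_nonneg _)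
  rw [abs_of_nonneg (hu.psi_nonneg x), abs_of_nonneg h1]
  unfold gK sN; ring

lemma gK_nonneg (hu : Sol u) (x : Fin 4 → ℝ) : 0 ≤ gK u x := by rw [gK_eq hu]; positivity

lemma gK_cont (hu : Sol u) (hp : ∀ x, 0 < gs u x) : Continuous (gK u) := by
  have cw1 : ContDiff ℝ 1 (wn u) := by exact_mod_cast wn_cd hu hp 1
  exact (hu.psi_contDiff.continuous.mul cw1.continuous).mul
    (Real.continuous_sqrt.comp (dn_cont hu hp))

lemma bψ {C R : ℝ} (hK : KB u C) (hR1 : 1 ≤ R) {S : Set (Fin 4 → ℝ)} (hS : S ⊆ eb 4 R) :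
    ∫ x in S, psi u x ^ 2 ≤ C * R ^ 3 :=
  (setIntegral_mono_set (int_on_eb (hK.sol.psi_contDiff.continuous.pow 2) R)
    (Eventually.of_forall fun x => sq_nonneg _) (Eventually.of_forall hS)).trans (hK.en R hR1)

lemma bN {C R : ℝ} (hK : KB u C) (hR1 : 1 ≤ R) {S : Set (Fin 4 → ℝ)} (hS : S ⊆ eb 4 R) :
    ∫ x in S, sN u x ^ 2 ≤ C * R := by
  have h1 : ∫ x in S, sN u x ^ 2 ≤ ∫ x in eb 4 R, sN u x ^ 2 :=
    setIntegral_mono_set (int_on_eb ((sN_cont hK.sol hK.pos).pow 2) R)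
      (Eventually.of_forall fun x => sq_nonneg _) (Eventually.of_forall hS)
  refine h1.trans ?_
  simp_rw [sN_sq]
  exact hK.st R hR1

lemma PP {C R k : ℝ} (hK : KB u C) (hk0 : 0 ≤ k) {T : Set (Fin 4 → ℝ)} (hT : T ⊆ eb 4 R)
    {X Y : ℝ} (hX0 : 0 ≤ X) (hY0 : 0 ≤ Y) (hX : ∫ x in T, psi u x ^ 2 ≤ X)
    (hY : ∫ x in T, sN u x ^ 2 ≤ Y) (hXY : X * Y ≤ (k * R ^ 2) ^ 2) :
    ∫ x in T, gK u x ≤ k * R ^ 2 := by
  have := piece hT hK.sol.psi_contDiff.continuous (sN_cont hK.sol hK.pos) hX0 hY0 hk0 hX hY hXY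
  refine le_trans (le_of_eq ?_) this
  congr 1; ext x; exact gK_eq hK.sol x

lemma q0 {C R k t : ℝ} (hK : K7 u C) (hk0 : 0 < k) (hR1 : 1 ≤ R) (ht0 : 0 < t)
    (ht : t * C ^ 2 ≤ k ^ 2) : ∫ x in eb 4 R ∩ {x | psi u x ≤ t}, gK u x ≤ k * R ^ 2 := by
  have hu := hK.sol
  have hC1 := hK.C1
  have hC0 : 0 < C := by linarith
  have hR0 : 0 < R := by linarith
  have cψ : Continuous (psi u) := hu.psi_contDiff.continuous
  have m0 : MeasurableSet {x : Fin 4 → ℝ | psi u x ≤ t} :=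
    measurableSet_le cψ.measurable measurable_const
  refine PP hK.toKB hk0.le Set.inter_subset_left (X := t * (C * R ^ 3)) (Y := C * R) (by positivity)
    (by positivity) ?_ (bN hK.toKB hR1 Set.inter_subset_left) ?_
  · calc ∫ x in eb 4 R ∩ {x | psi u x ≤ t}, psi u x ^ 2
        ≤ ∫ x in eb 4 R ∩ {x | psi u x ≤ t}, t * psi u x := by
          refine setIntegral_mono_on ((int_on_eb (cψ.pow 2) R).mono_set Set.inter_subset_left)
            (((int_on_eb cψ R).mono_set Set.inter_subset_left).const_mul t)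
            ((meas_eb R).inter m0) ?_
          intro x hx
          have h1 : psi u x ≤ t := hx.2
          have h2 := hu.psi_nonneg x
          nlinarith
      _ = t * ∫ x in eb 4 R ∩ {x | psi u x ≤ t}, psi u x := integral_const_mul _ _
      _ ≤ t * ∫ x in eb 4 R, psi u x := by
          refine mul_le_mul_of_nonneg_left ?_ ht0.le
          exact setIntegral_mono_set (int_on_eb cψ R)
            (Eventually.of_forall fun x => hu.psi_nonneg x)
            (Eventually.of_forall Set.inter_subset_left)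
      _ ≤ t * (C * R ^ 3) := by gcongr; exact hK.ps R hR1
  · rw [show t * (C * R ^ 3) * (C * R) = (t * C ^ 2) * R ^ 4 by ring,
      show (k * R ^ 2) ^ 2 = k ^ 2 * R ^ 4 by ring]
    gcongr

lemma q1 {C R k δ : ℝ} (hK : K7 u C) (hk0 : 0 < k) (hR1 : 1 ≤ R) (hδp : 0 < δ)
    (hRa : C ^ 2 / (δ * k ^ 2) ≤ R) :
    ∫ x in eb 4 R ∩ {x | δ * psi u x ^ 2 < defi u x}, gK u x ≤ k * R ^ 2 := by
  have hu := hK.sol
  have hC1 := hK.C1
  have hC0 : 0 < C := by linarith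
  have hR0 : 0 < R := by linarith
  have cψ : Continuous (psi u) := hu.psi_contDiff.continuous
  have cD : Continuous (defi u) := hu.defi_continuous
  refine PP hK.toKB hk0.le Set.inter_subset_left (X := C / δ * R ^ 2) (Y := C * R) (by positivity)
    (by positivity) ?_ (bN hK.toKB hR1 Set.inter_subset_left) ?_
  · calc ∫ x in eb 4 R ∩ {x | δ * psi u x ^ 2 < defi u x}, psi u x ^ 2
        ≤ ∫ x in eb 4 R ∩ {x | δ * psi u x ^ 2 < defi u x}, (1 / δ) * defi u x := by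
          refine setIntegral_mono_on ((int_on_eb (cψ.pow 2) R).mono_set Set.inter_subset_left)
            (((int_on_eb cD R).mono_set Set.inter_subset_left).const_mul _)
            ((meas_eb R).inter (measurableSet_lt (continuous_const.mul (cψ.pow 2)).measurable
              cD.measurable)) ?_
          intro x hx
          have h1 : δ * psi u x ^ 2 < defi u x := hx.2
          rw [one_div, ← div_eq_inv_mul, le_div_iff₀ hδp]
          linarith
      _ = (1 / δ) * ∫ x in eb 4 R ∩ {x | δ * psi u x ^ 2 < defi u x}, defi u x :=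
          integral_const_mul _ _
      _ ≤ (1 / δ) * ∫ x in eb 4 R, defi u x := by
          refine mul_le_mul_of_nonneg_left ?_ (by positivity)
          exact setIntegral_mono_set (int_on_eb cD R)
            (Eventually.of_forall fun x => hu.defi_nonneg x)
            (Eventually.of_forall Set.inter_subset_left)
      _ ≤ (1 / δ) * (C * R ^ 2) := by gcongr; exact hK.de R hR1
      _ = C / δ * R ^ 2 := by ring
  · rw [div_le_iff₀ (by positivity)] at hRa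
    have : C / δ * R ^ 2 * (C * R) = (C ^ 2 / δ) * R ^ 3 := by ring
    rw [this, show (k * R ^ 2) ^ 2 = (k ^ 2 * R) * R ^ 3 by ring]
    refine mul_le_mul_of_nonneg_right ?_ (by positivity)
    rw [div_le_iff₀ hδp]; linarith

lemma q2 {C R k ϱ : ℝ} (hK : K7 u C) (hk0 : 0 < k) (hR1 : 1 ≤ R) (hϱ0 : 0 < ϱ) (hϱ1 : ϱ ≤ 1)
    (hϱ2 : ϱ ≤ k / (5 * C)) (hRc : 1 / (2 * ϱ) ≤ R) :
    ∫ x in eb 4 R ∩ {x | x 0 ^ 2 + x 1 ^ 2 + x 2 ^ 2 < (ϱ * R) ^ 2}, gK u x ≤ k * R ^ 2 := by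
  have hu := hK.sol
  have hC1 := hK.C1
  have hC0 : 0 < C := by linarith
  have hR0 : 0 < R := by linarith
  have cψ : Continuous (psi u) := hu.psi_contDiff.continuous
  refine PP hK.toKB hk0.le Set.inter_subset_left (X := 24 * C * ϱ ^ 2 * R ^ 3) (Y := C * R)
    (by positivity) (by positivity) ?_ (bN hK.toKB hR1 Set.inter_subset_left) ?_
  · have h2 : 1 ≤ 2 * ϱ * R := by
      rw [div_le_iff₀ (by positivity)] at hRc; linarith
    exact cyl_le (g := fun x => psi u x ^ 2) (cψ.pow 2) (fun x => sq_nonneg _) hC0.le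
      (fun y r hr => hK.en' y r hr) hϱ0 hϱ1 hR0 h2
  · rw [le_div_iff₀ (by positivity)] at hϱ2
    have h3 : (ϱ * (5 * C)) ^ 2 ≤ k ^ 2 := by gcongr
    have : 24 * C * ϱ ^ 2 * R ^ 3 * (C * R) = (24 * C ^ 2 * ϱ ^ 2) * R ^ 4 := by ring
    rw [this, show (k * R ^ 2) ^ 2 = k ^ 2 * R ^ 4 by ring]
    refine mul_le_mul_of_nonneg_right ?_ (by positivity)
    nlinarith [mul_pos (pow_pos hC0 2) (pow_pos hϱ0 2)]

lemma four_gs {δ : ℝ} (hδ4 : δ ≤ 1 / 4) (h1 : defi u x ≤ δ * psi u x ^ 2) :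
    psi u x ^ 2 ≤ 4 * gs u x := by
  rw [defi_eq] at h1
  nlinarith [sq_nonneg (psi u x)]

lemma q3 {C R k δ ε ε' : ℝ} (hK : K7 u C) (hk0 : 0 < k) (hR1 : 1 ≤ R) (hδ4 : δ ≤ 1 / 4)
    (hε0 : 0 < ε) (hε'0 : 0 < ε') (hε1 : ε ≤ k ^ 2 * ε' ^ 2 / (16 * C))
    (hs : ∫ x in eb 4 (2 * R), rd u x ^ 2 ≤ ε * R ^ 5) :
    ∫ x in eb 4 R ∩ ({x | defi u x ≤ δ * psi u x ^ 2} ∩ {x | (ε' * R / 2) ^ 2 < vs u x ^ 2}),
      gK u x ≤ k * R ^ 2 := by
  have hu := hK.sol
  have hp := hK.pos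
  have hC1 := hK.C1
  have hC0 : 0 < C := by linarith
  have hR0 : 0 < R := by linarith
  have cψ : Continuous (psi u) := hu.psi_contDiff.continuous
  have cD : Continuous (defi u) := hu.defi_continuous
  have crd : Continuous (rd u) := (Sol.rd_c2 hu).continuous
  have cvs : Continuous (vs u) := by
    have : ContDiff ℝ 1 (vs u) := by exact_mod_cast vs_cd hu hp 1
    exact this.continuous
  have hm : MeasurableSet ({x : Fin 4 → ℝ | defi u x ≤ δ * psi u x ^ 2} ∩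
      {x | (ε' * R / 2) ^ 2 < vs u x ^ 2}) :=
    (measurableSet_le cD.measurable (continuous_const.mul (cψ.pow 2)).measurable).inter
      (measurableSet_lt measurable_const (cvs.pow 2).measurable)
  set T := ({x : Fin 4 → ℝ | defi u x ≤ δ * psi u x ^ 2} ∩
      {x | (ε' * R / 2) ^ 2 < vs u x ^ 2}) with hT
  refine PP hK.toKB hk0.le Set.inter_subset_left (X := 16 * ε / ε' ^ 2 * R ^ 3) (Y := C * R)
    (by positivity) (by positivity) ?_ (bN hK.toKB hR1 Set.inter_subset_left) ?_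
  · calc ∫ x in eb 4 R ∩ T, psi u x ^ 2
        ≤ ∫ x in eb 4 R ∩ T, (16 / (ε' * R) ^ 2) * rd u x ^ 2 := by
          refine setIntegral_mono_on ((int_on_eb (cψ.pow 2) R).mono_set Set.inter_subset_left)
            (((int_on_eb (crd.pow 2) R).mono_set Set.inter_subset_left).const_mul _)
            ((meas_eb R).inter hm) ?_
          intro x hx
          have h3 : psi u x ^ 2 ≤ 4 * gs u x := four_gs hδ4 hx.2.1
          have h2 : (ε' * R / 2) ^ 2 < vs u x ^ 2 := hx.2.2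
          have hgx := hp x
          have h5 : vs u x ^ 2 * gs u x = rd u x ^ 2 := by
            unfold vs; rw [div_pow, wn_sq]; field_simp
          rw [div_mul_eq_mul_div, le_div_iff₀ (by positivity)]
          have h6 : (ε' * R / 2) ^ 2 * gs u x ≤ rd u x ^ 2 := by
            rw [← h5]; exact mul_le_mul_of_nonneg_right h2.le hgx.le
          have h7 : psi u x ^ 2 * (ε' * R) ^ 2 ≤ 4 * gs u x * (ε' * R) ^ 2 :=
            mul_le_mul_of_nonneg_right h3 (sq_nonneg _)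
          nlinarith
      _ = (16 / (ε' * R) ^ 2) * ∫ x in eb 4 R ∩ T, rd u x ^ 2 := integral_const_mul _ _
      _ ≤ (16 / (ε' * R) ^ 2) * ∫ x in eb 4 (2 * R), rd u x ^ 2 := by
          refine mul_le_mul_of_nonneg_left ?_ (by positivity)
          refine setIntegral_mono_set (int_on_eb (crd.pow 2) (2 * R))
            (Eventually.of_forall fun x => sq_nonneg _) (Eventually.of_forall ?_)
          exact Set.inter_subset_left.trans (eb_mono hR0.le (by linarith))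
      _ ≤ (16 / (ε' * R) ^ 2) * (ε * R ^ 5) := by gcongr
      _ = 16 * ε / ε' ^ 2 * R ^ 3 := by field_simp
  · rw [le_div_iff₀ (by positivity)] at hε1
    have : 16 * ε / ε' ^ 2 * R ^ 3 * (C * R) = (ε * (16 * C) / ε' ^ 2) * R ^ 4 := by ring
    rw [this, show (k * R ^ 2) ^ 2 = k ^ 2 * R ^ 4 by ring]
    refine mul_le_mul_of_nonneg_right ?_ (by positivity)
    rw [div_le_iff₀ (by positivity)]; exact hε1

lemma q4 {C R k τ0 ε C5 : ℝ} {a : Fin 4 → ℝ} (hK : K7 u C) (hk0 : 0 < k) (hR1 : 1 ≤ R)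
    (hτ : ∀ x, 0 < tau a u x) (hτ00 : 0 < τ0) (hC50 : 0 < C5)
    (hε2 : Real.sqrt ε ≤ k ^ 2 * τ0 / (C * C5))
    (hs5 : ∫ x in eb 4 R, (wn u x ^ 2 * dn u x) * tau a u x ≤ C5 * Real.sqrt ε * R) :
    ∫ x in eb 4 R ∩ {x | τ0 < tau a u x}, gK u x ≤ k * R ^ 2 := by
  have hu := hK.sol
  have hp := hK.pos
  have hC1 := hK.C1
  have hC0 : 0 < C := by linarith
  have hR0 : 0 < R := by linarith
  have cw1 : ContDiff ℝ 1 (wn u) := by exact_mod_cast wn_cd hu hp 1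
  have cτ1 : ContDiff ℝ 1 (tau a u) := by exact_mod_cast tau_cd hu hp a 1
  have cdn := dn_cont hu hp
  have m4 : MeasurableSet {x : Fin 4 → ℝ | τ0 < tau a u x} :=
    measurableSet_lt measurable_const cτ1.continuous.measurable
  refine PP hK.toKB hk0.le Set.inter_subset_left (X := C * R ^ 3) (Y := C5 * Real.sqrt ε / τ0 * R)
    (by positivity) (by positivity) (bψ hK.toKB hR1 Set.inter_subset_left) ?_ ?_
  · calc ∫ x in eb 4 R ∩ {x | τ0 < tau a u x}, sN u x ^ 2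
        ≤ ∫ x in eb 4 R ∩ {x | τ0 < tau a u x}, (1 / τ0) * ((wn u x ^ 2 * dn u x) * tau a u x) := by
          refine setIntegral_mono_on ((int_on_eb ((sN_cont hu hp).pow 2) R).mono_set
            Set.inter_subset_left)
            (((int_on_eb (((cw1.continuous.pow 2).mul cdn).mul cτ1.continuous) R).mono_set
              Set.inter_subset_left).const_mul _) ((meas_eb R).inter m4) ?_
          intro x hx
          have h1 : τ0 < tau a u x := hx.2
          rw [sN_sq, one_div, ← div_eq_inv_mul, le_div_iff₀ hτ00]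
          exact mul_le_mul_of_nonneg_left h1.le (mul_nonneg (sq_nonneg _) (dn_nonneg _ _))
      _ = (1 / τ0) * ∫ x in eb 4 R ∩ {x | τ0 < tau a u x}, (wn u x ^ 2 * dn u x) * tau a u x :=
          integral_const_mul _ _
      _ ≤ (1 / τ0) * ∫ x in eb 4 R, (wn u x ^ 2 * dn u x) * tau a u x := by
          refine mul_le_mul_of_nonneg_left ?_ (by positivity)
          refine setIntegral_mono_set (int_on_eb (((cw1.continuous.pow 2).mul cdn).mul
            cτ1.continuous) R) (Eventually.of_forall fun x =>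
              mul_nonneg (mul_nonneg (sq_nonneg _) (dn_nonneg _ _)) (hτ x).le)
            (Eventually.of_forall Set.inter_subset_left)
      _ ≤ (1 / τ0) * (C5 * Real.sqrt ε * R) := by gcongr
      _ = C5 * Real.sqrt ε / τ0 * R := by ring
  · rw [le_div_iff₀ (by positivity)] at hε2
    have : C * R ^ 3 * (C5 * Real.sqrt ε / τ0 * R) = (Real.sqrt ε * (C * C5) / τ0) * R ^ 4 := by
      ring
    rw [this, show (k * R ^ 2) ^ 2 = k ^ 2 * R ^ 4 by ring]
    refine mul_le_mul_of_nonneg_right ?_ (by positivity)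
    rw [div_le_iff₀ hτ00]; exact hε2

end Vale.Agent.P134.H981
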