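import Vale.Agent.P134.H981.K1

set_option linter.all false

/-! Step 1.7: (K1'), the good set and the conclusion. -/

namespace Vale.Agent.P134.H981

open Vale.Agent.P134 Vale.Agent.P134.SM Filter Topology MeasureTheory

variable {u : (Fin 4 → ℝ) → ℝ} {x : Fin 4 → ℝ}

/-- The good set. -/
def GS (u : (Fin 4 → ℝ) → ℝ) (a : Fin 4 → ℝ) (t δ ϱ ε' τ0 R : ℝ) : Set (Fin 4 → ℝ) :=
  ({x | t < psi u x} ∩ {x | defi u x ≤ δ * psi u x ^ 2}) ∩
    ({x | (ϱ * R) ^ 2 ≤ x 0 ^ 2 + x 1 ^ 2 + x 2 ^ 2} ∩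
      ({x | vs u x ^ 2 ≤ (ε' * R / 2) ^ 2} ∩ {x | tau a u x ≤ τ0}))

lemma GS_meas (hu : Sol u) (hp : ∀ x, 0 < gs u x) (a : Fin 4 → ℝ) (t δ ϱ ε' τ0 R : ℝ) :
    MeasurableSet (GS u a t δ ϱ ε' τ0 R) := by
  have cτ1 : ContDiff ℝ 1 (tau a u) := by exact_mod_cast tau_cd hu hp a 1
  have cvs : Continuous (vs u) := by
    have : ContDiff ℝ 1 (vs u) := by exact_mod_cast vs_cd hu hp 1
    exact this.continuous
  have cψ : Continuous (psi u) := hu.psi_contDiff.continuous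
  have cx : Continuous (fun x : Fin 4 → ℝ => x 0 ^ 2 + x 1 ^ 2 + x 2 ^ 2) := by fun_prop
  exact ((measurableSet_lt measurable_const cψ.measurable).inter
      (measurableSet_le hu.defi_continuous.measurable
        (continuous_const.mul (cψ.pow 2)).measurable)).inter
      ((measurableSet_le measurable_const cx.measurable).inter
        ((measurableSet_le (cvs.pow 2).measurable measurable_const).inter
          (measurableSet_le cτ1.continuous.measurable measurable_const)))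

noncomputable def KK1 (ϱ : ℝ) : ℝ := 5 * 1 / (ϱ ^ 2 / 2) + 10 * 1 ^ 2 / (ϱ ^ 2 / 2) ^ 2
noncomputable def KK2 (ϱ : ℝ) : ℝ := 10 / (ϱ ^ 2 / 2)

lemma KK1_pos {ϱ : ℝ} (h : 0 < ϱ) : 0 < KK1 ϱ := by unfold KK1; positivity
lemma KK2_pos {ϱ : ℝ} (h : 0 < ϱ) : 0 < KK2 ϱ := by unfold KK2; positivity

noncomputable def fA (a : Fin 4 → ℝ) (u : (Fin 4 → ℝ) → ℝ) (x : Fin 4 → ℝ) : ℝ :=
  wn u x * Real.sqrt (gs (tau a u) x)
noncomputable def fB (u : (Fin 4 → ℝ) → ℝ) (x : Fin 4 → ℝ) : ℝ :=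
  wn u x * Real.sqrt (gs (kap u) x)

lemma fA_sq (a : Fin 4 → ℝ) (u : (Fin 4 → ℝ) → ℝ) (x : Fin 4 → ℝ) :
    fA a u x ^ 2 = wn u x ^ 2 * gs (tau a u) x := by
  unfold fA; rw [mul_pow, Real.sq_sqrt (gs_nonneg _ _)]
lemma fB_sq (u : (Fin 4 → ℝ) → ℝ) (x : Fin 4 → ℝ) :
    fB u x ^ 2 = wn u x ^ 2 * gs (kap u) x := by
  unfold fB; rw [mul_pow, Real.sq_sqrt (gs_nonneg _ _)]

lemma fA_cont (hu : Sol u) (hp : ∀ x, 0 < gs u x) (a : Fin 4 → ℝ) : Continuous (fA a u) := by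
  have cw1 : ContDiff ℝ 1 (wn u) := by exact_mod_cast wn_cd hu hp 1
  have cτ1 : ContDiff ℝ 1 (tau a u) := by exact_mod_cast tau_cd hu hp a 1
  exact cw1.continuous.mul (Real.continuous_sqrt.comp (gs_cont cτ1))
lemma fB_cont (hu : Sol u) (hp : ∀ x, 0 < gs u x) : Continuous (fB u) := by
  have cw1 : ContDiff ℝ 1 (wn u) := by exact_mod_cast wn_cd hu hp 1
  have cκ1 : ContDiff ℝ 1 (kap u) := by exact_mod_cast kap_cd hu hp 1
  exact cw1.continuous.mul (Real.continuous_sqrt.comp (gs_cont cκ1))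

lemma good_pt (hu : Sol u) (hp : ∀ x, 0 < gs u x) {a : Fin 4 → ℝ} (haa : a = Pi.single 3 1)
    (hτ : ∀ x, 0 < tau a u x) {t δ ϱ ε' τ0 R : ℝ} (hR0 : 0 < R) (hϱ0 : 0 < ϱ) (hϱ1 : ϱ ≤ 1)
    (hδ4 : δ ≤ 1 / 4) (hε' : ε' ≤ ϱ / 4) (hε'0 : 0 < ε') (hτ0 : τ0 ≤ ϱ / 4)
    (hx : x ∈ eb 4 R ∩ GS u a t δ ϱ ε' τ0 R) :
    gK u x ≤ Real.sqrt (KK1 ϱ) * (|psi u x| * |fA a u x|)
        + (Real.sqrt (KK2 ϱ) / R) * (|psi u x| * |fB u x|) + 2 * Real.sqrt (gs (defi u) x) := by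
  obtain ⟨hxR, ⟨h1, h2⟩, h3, h5, h6⟩ := hx
  have h2' : defi u x ≤ δ * psi u x ^ 2 := h2
  have h3' : (ϱ * R) ^ 2 ≤ x 0 ^ 2 + x 1 ^ 2 + x 2 ^ 2 := h3
  have h5' : vs u x ^ 2 ≤ (ε' * R / 2) ^ 2 := h5
  have h6' : tau a u x ≤ τ0 := h6
  have hψw : psi u x ≤ 2 * wn u x := by
    have h7 : psi u x ^ 2 ≤ (2 * wn u x) ^ 2 := by
      rw [mul_pow, wn_sq]; have := four_gs hδ4 h2'; linarith
    have := wn_nonneg u x
    exact le_of_abs_le (abs_le_of_sq_le_sq h7 (by positivity))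
  have hxx : x 0 ^ 2 + x 1 ^ 2 + x 2 ^ 2 + x 3 ^ 2 ≤ R ^ 2 := by
    have : rho Finset.univ x ≤ R ^ 2 := hxR
    unfold rho at this
    rw [Fin.sum_univ_four] at this
    exact this
  have h8 : vs u x ^ 2 ≤ (ϱ / 4 * R / 2) ^ 2 := by
    refine h5'.trans ?_
    gcongr
  have hgc := gram_cond (τ := tau a u x) (σ := vs u x) hR0 hϱ0 hϱ1 hxx h3' (hτ x).le
    (h6'.trans hτ0) h8
  have hax : ∑ i, a i * x i = x 3 := by
    rw [Fin.sum_univ_four, haa]; simp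
  have ha : ∑ i, a i ^ 2 = 1 := by rw [haa]; exact sum_single_sq
  have hdn := dn_le (x := x) hu (hp x) ha hR0 (κ := kap u)
    (b := Real.sqrt 2 * wn u x / psi u x) (fun j => pd_kap' hu (hp x) j)
    (c := ϱ ^ 2 / 2) (K := 1) (by positivity) le_rfl
    (by rw [Fin.sum_univ_four]; linarith)
    (by rw [hax, Fin.sum_univ_four]; exact hgc)
  exact good_bound hu (hp x) (KK1_pos hϱ0).le (KK2_pos hϱ0).le hR0 hdn hψw

lemma q5 {C : ℝ} (hK : K7 u C) {a : Fin 4 → ℝ} (haa : a = Pi.single 3 1)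
    (hτ : ∀ x, 0 < tau a u x) {t δ δ0 ϱ ε' τ0 R k M C6 C7 : ℝ} (hk0 : 0 < k) (hR1 : 1 ≤ R)
    (hϱ0 : 0 < ϱ) (hϱ1 : ϱ ≤ 1)
    (hδ4 : δ ≤ 1 / 4) (hδ0 : δ ≤ δ0) (hε' : ε' ≤ ϱ / 4) (hε'0 : 0 < ε') (hτ0 : τ0 ≤ ϱ / 4)
    (hτ00 : 0 < τ0) (hC60 : 0 < C6) (hC70 : 0 < C7)
    (hτb : τ0 ≤ k ^ 2 / (KK1 ϱ * (C * C6))) (hεb : ε' ≤ k ^ 2 / (KK2 ϱ * (C * C7)))
    (hM : ∀ x, t < psi u x → |dph u x| ≤ M) (hRb : 2 * M / ε' ≤ R)
    (s6 : ∫ x in eb 4 R ∩ {x | tau a u x ≤ τ0}, wn u x ^ 2 * gs (tau a u) x ≤ C6 * τ0 * R)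
    (s7 : ∫ x in eb 4 R ∩ {x | |kap u x| ≤ ε' * R}, wn u x ^ 2 * gs (kap u) x ≤ C7 * ε' * R ^ 3)
    (hd : ∫ x in eb 4 R ∩ {x | defi u x ≤ δ0 * psi u x ^ 2}, Real.sqrt (gs (defi u) x)
      ≤ k / 2 * R ^ 2) :
    ∫ x in eb 4 R ∩ GS u a t δ ϱ ε' τ0 R, gK u x ≤ 3 * (k * R ^ 2) := by
  have hu := hK.sol
  have hp := hK.pos
  have hC1 := hK.C1
  have hC0 : 0 < C := by linarith
  have hR0 : 0 < R := by linarith
  have cψ : Continuous (psi u) := hu.psi_contDiff.continuous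
  have cgd : Continuous (fun x => Real.sqrt (gs (defi u) x)) :=
    Real.continuous_sqrt.comp (gs_cont ((Sol.defi_c2 hu).of_le (by norm_num)))
  have cfA := fA_cont hu hp a
  have cfB := fB_cont hu hp
  set T : Set (Fin 4 → ℝ) := eb 4 R ∩ GS u a t δ ϱ ε' τ0 R with hT
  have hTm : MeasurableSet T := (meas_eb R).inter (GS_meas hu hp _ _ _ _ _ _ _)
  have hTs : T ⊆ eb 4 R := Set.inter_subset_left
  have i1 : IntegrableOn (fun x => |psi u x| * |fA a u x|) T :=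
    (int_on_eb ((continuous_abs.comp cψ).mul (continuous_abs.comp cfA)) R).mono_set hTs
  have i2 : IntegrableOn (fun x => |psi u x| * |fB u x|) T :=
    (int_on_eb ((continuous_abs.comp cψ).mul (continuous_abs.comp cfB)) R).mono_set hTs
  have i3 : IntegrableOn (fun x => Real.sqrt (gs (defi u) x)) T :=
    (int_on_eb cgd R).mono_set hTs
  set K1 := KK1 ϱ with hK1
  set K2 := KK2 ϱ with hK2
  have hK10 : 0 < K1 := KK1_pos hϱ0
  have hK20 : 0 < K2 := KK2_pos hϱ0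
  have hle : ∫ x in T, gK u x ≤ Real.sqrt K1 * (∫ x in T, |psi u x| * |fA a u x|)
      + (Real.sqrt K2 / R) * (∫ x in T, |psi u x| * |fB u x|)
      + 2 * ∫ x in T, Real.sqrt (gs (defi u) x) := by
    have j12 : IntegrableOn (fun x => Real.sqrt K1 * (|psi u x| * |fA a u x|)
        + (Real.sqrt K2 / R) * (|psi u x| * |fB u x|)) T := (i1.const_mul _).add (i2.const_mul _)
    rw [← integral_const_mul, ← integral_const_mul, ← integral_const_mul,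
      ← integral_add (i1.const_mul _) (i2.const_mul _), ← integral_add j12 (i3.const_mul _)]
    exact setIntegral_mono_on ((int_on_eb (gK_cont hu hp) R).mono_set hTs)
      (j12.add (i3.const_mul _)) hTm
      (fun x hx => good_pt hu hp haa hτ hR0 hϱ0 hϱ1 hδ4 hε' hε'0 hτ0 hx)
  have k1s : 0 < Real.sqrt K1 := Real.sqrt_pos.mpr hK10
  have k2s : 0 < Real.sqrt K2 := Real.sqrt_pos.mpr hK20
  have w1 : ∫ x in T, |psi u x| * |fA a u x| ≤ (k / Real.sqrt K1) * R ^ 2 := by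
    refine piece hTs cψ cfA (X := C * R ^ 3) (Y := C6 * τ0 * R) (by positivity) (by positivity)
      (by positivity) (bψ hK.toKB hR1 hTs) ?_ ?_
    · refine le_trans ?_ s6
      simp_rw [← fA_sq]
      refine setIntegral_mono_set ((int_on_eb (cfA.pow 2) R).mono_set
        Set.inter_subset_left) (Eventually.of_forall fun x => sq_nonneg _)
        (Eventually.of_forall ?_)
      intro x hx
      exact ⟨hx.1, hx.2.2.2.2⟩
    · rw [le_div_iff₀ (by positivity)] at hτb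
      have e1 : (k / Real.sqrt K1 * R ^ 2) ^ 2 = k ^ 2 / K1 * R ^ 4 := by
        rw [mul_pow, div_pow, Real.sq_sqrt hK10.le]; ring
      rw [e1, show C * R ^ 3 * (C6 * τ0 * R) = (C * C6 * τ0) * R ^ 4 by ring]
      refine mul_le_mul_of_nonneg_right ?_ (by positivity)
      rw [le_div_iff₀ hK10]; linarith
  have w2 : ∫ x in T, |psi u x| * |fB u x| ≤ (k / Real.sqrt K2 * R) * R ^ 2 := by
    refine piece hTs cψ cfB (X := C * R ^ 3) (Y := C7 * ε' * R ^ 3) (by positivity)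
      (by positivity) (by positivity) (bψ hK.toKB hR1 hTs) ?_ ?_
    · refine le_trans ?_ s7
      simp_rw [← fB_sq]
      refine setIntegral_mono_set ((int_on_eb (cfB.pow 2) R).mono_set
        Set.inter_subset_left) (Eventually.of_forall fun x => sq_nonneg _)
        (Eventually.of_forall ?_)
      intro x hx
      refine ⟨hx.1, ?_⟩
      have h1 : t < psi u x := hx.2.1.1
      have h5 : vs u x ^ 2 ≤ (ε' * R / 2) ^ 2 := hx.2.2.2.1
      have h7 : |vs u x| ≤ ε' * R / 2 := abs_le_of_sq_le_sq h5 (by positivity)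
      have h8 := hM x h1
      rw [div_le_iff₀ hε'0] at hRb
      change |kap u x| ≤ ε' * R
      unfold kap
      calc |vs u x - dph u x| ≤ |vs u x| + |dph u x| := abs_sub _ _
        _ ≤ ε' * R / 2 + M := add_le_add h7 h8
        _ ≤ ε' * R := by linarith
    · rw [le_div_iff₀ (by positivity)] at hεb
      have e1 : (k / Real.sqrt K2 * R * R ^ 2) ^ 2 = k ^ 2 / K2 * R ^ 6 := by
        rw [mul_pow, mul_pow, div_pow, Real.sq_sqrt hK20.le]; ring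
      rw [e1, show C * R ^ 3 * (C7 * ε' * R ^ 3) = (C * C7 * ε') * R ^ 6 by ring]
      refine mul_le_mul_of_nonneg_right ?_ (by positivity)
      rw [le_div_iff₀ hK20]; linarith
  have w3 : ∫ x in T, Real.sqrt (gs (defi u) x) ≤ k / 2 * R ^ 2 := by
    refine le_trans ?_ hd
    refine setIntegral_mono_set ((int_on_eb cgd R).mono_set Set.inter_subset_left)
      (Eventually.of_forall fun x => Real.sqrt_nonneg _) (Eventually.of_forall ?_)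
    intro x hx
    refine ⟨hx.1, ?_⟩
    have h2 : defi u x ≤ δ * psi u x ^ 2 := hx.2.1.2
    change defi u x ≤ δ0 * psi u x ^ 2
    nlinarith [sq_nonneg (psi u x)]
  calc ∫ x in T, gK u x ≤ Real.sqrt K1 * (∫ x in T, |psi u x| * |fA a u x|)
      + (Real.sqrt K2 / R) * (∫ x in T, |psi u x| * |fB u x|)
      + 2 * ∫ x in T, Real.sqrt (gs (defi u) x) := hle
    _ ≤ Real.sqrt K1 * ((k / Real.sqrt K1) * R ^ 2)
      + (Real.sqrt K2 / R) * ((k / Real.sqrt K2 * R) * R ^ 2) + 2 * (k / 2 * R ^ 2) := by gcongr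
    _ = 3 * (k * R ^ 2) := by field_simp; ring

/-- (K1'), step 1.7. -/
theorem k1_of {C : ℝ} (hK : K7 u C)
    (hS : ∀ ε : ℝ, 0 < ε → ∀ᶠ R : ℝ in atTop, ∫ x in eb 4 R, rd u x ^ 2 ≤ ε * R ^ 5)
    (h4 : ∀ η : ℝ, 0 < η → ∃ δ : ℝ, 0 < δ ∧ ∀ᶠ R : ℝ in atTop,
      ∫ x in eb 4 R ∩ {x | defi u x ≤ δ * psi u x ^ 2}, Real.sqrt (gs (defi u) x) ≤ η * R ^ 2) :
    ∀ θ : ℝ, 0 < θ → ∀ᶠ R : ℝ in atTop,
      ∫ x in eb 4 R, psi u x * wn u x * Real.sqrt (dn u x) ≤ θ * R ^ 2 := by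
  intro θ hθ
  have hu := hK.sol
  have hp := hK.pos
  have hC1 := hK.C1
  have hC0 : 0 < C := by linarith
  obtain ⟨a, haa⟩ : ∃ a : Fin 4 → ℝ, a = Pi.single 3 1 := ⟨_, rfl⟩
  have ha : ∑ i, a i ^ 2 = 1 := by rw [haa]; exact sum_single_sq
  have hτ : ∀ x, 0 < tau a u x := fun x => by rw [haa]; exact tau3_pos (hp x) (hK.mono x)
  obtain ⟨C5, hC5, s5⟩ := step5 hK.toKB ha hτ
  obtain ⟨C6, hC6, s6⟩ := step6a hK.toKB ha hτ
  obtain ⟨C7, hC7, s7⟩ := step6b hK.toKB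
  have hC50 : 0 < C5 := by linarith
  have hC60 : 0 < C6 := by linarith
  have hC70 : 0 < C7 := by linarith
  obtain ⟨k, hk⟩ : ∃ k : ℝ, k = θ / 8 := ⟨_, rfl⟩
  have hk0 : 0 < k := by rw [hk]; positivity
  obtain ⟨t, ht⟩ : ∃ t : ℝ, t = k ^ 2 / C ^ 2 := ⟨_, rfl⟩
  have ht0 : 0 < t := by rw [ht]; positivity
  obtain ⟨ϱ, hϱ⟩ : ∃ ϱ : ℝ, ϱ = min 1 (k / (5 * C)) := ⟨_, rfl⟩
  have hϱ0 : 0 < ϱ := by rw [hϱ]; exact lt_min one_pos (by positivity)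
  have hϱ1 : ϱ ≤ 1 := by rw [hϱ]; exact min_le_left _ _
  have hϱ2 : ϱ ≤ k / (5 * C) := by rw [hϱ]; exact min_le_right _ _
  have hK10 := KK1_pos hϱ0
  have hK20 := KK2_pos hϱ0
  obtain ⟨τ0, hτ0⟩ : ∃ τ0 : ℝ, τ0 = min (ϱ / 4) (k ^ 2 / (KK1 ϱ * (C * C6))) := ⟨_, rfl⟩
  have hτ00 : 0 < τ0 := by rw [hτ0]; exact lt_min (by positivity) (by positivity)
  obtain ⟨ε', hε'⟩ : ∃ ε' : ℝ, ε' = min (ϱ / 4) (k ^ 2 / (KK2 ϱ * (C * C7))) := ⟨_, rfl⟩
  have hε'0 : 0 < ε' := by rw [hε']; exact lt_min (by positivity) (by positivity)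
  obtain ⟨δ0, hδ00, hδ0⟩ := h4 (k / 2) (by positivity)
  obtain ⟨δ, hδ⟩ : ∃ δ : ℝ, δ = min δ0 (1 / 4) := ⟨_, rfl⟩
  have hδp : 0 < δ := by rw [hδ]; exact lt_min hδ00 (by norm_num)
  have hδ4 : δ ≤ 1 / 4 := by rw [hδ]; exact min_le_right _ _
  have hδδ : δ ≤ δ0 := by rw [hδ]; exact min_le_left _ _
  obtain ⟨M, hM0, hM⟩ := dph_bound ht0
  obtain ⟨ε, hε⟩ : ∃ ε : ℝ, ε = min (k ^ 2 * ε' ^ 2 / (16 * C)) ((k ^ 2 * τ0 / (C * C5)) ^ 2) :=
    ⟨_, rfl⟩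
  have hε0 : 0 < ε := by rw [hε]; exact lt_min (by positivity) (by positivity)
  have hε1 : ε ≤ k ^ 2 * ε' ^ 2 / (16 * C) := by rw [hε]; exact min_le_left _ _
  have hε2 : Real.sqrt ε ≤ k ^ 2 * τ0 / (C * C5) := by
    calc Real.sqrt ε ≤ Real.sqrt ((k ^ 2 * τ0 / (C * C5)) ^ 2) :=
          Real.sqrt_le_sqrt (by rw [hε]; exact min_le_right _ _)
      _ = _ := Real.sqrt_sq (by positivity)
  have ev1 : ∀ᶠ R : ℝ in atTop, ∫ x in eb 4 (2 * R), rd u x ^ 2 ≤ ε * R ^ 5 := by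
    have h1 := (tendsto_id.const_mul_atTop (show (0:ℝ) < 2 by norm_num)).eventually
      (hS (ε / 32) (by positivity))
    filter_upwards [h1] with R hR
    simp only [id] at hR
    refine hR.trans (le_of_eq ?_)
    ring
  filter_upwards [ev1, hδ0, eventually_ge_atTop 1, eventually_ge_atTop (C ^ 2 / (δ * k ^ 2)),
    eventually_ge_atTop (2 * M / ε'), eventually_ge_atTop (1 / (2 * ϱ))] with R hs hd hR1 hRa hRb hRc
  have cψ : Continuous (psi u) := hu.psi_contDiff.continuous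
  have cD : Continuous (defi u) := hu.defi_continuous
  have cτ1 : ContDiff ℝ 1 (tau a u) := by exact_mod_cast tau_cd hu hp a 1
  have cvs : Continuous (vs u) := by
    have : ContDiff ℝ 1 (vs u) := by exact_mod_cast vs_cd hu hp 1
    exact this.continuous
  let S : Fin 6 → Set (Fin 4 → ℝ) := ![
    {x | psi u x ≤ t},
    {x | δ * psi u x ^ 2 < defi u x},
    {x | x 0 ^ 2 + x 1 ^ 2 + x 2 ^ 2 < (ϱ * R) ^ 2},
    {x | defi u x ≤ δ * psi u x ^ 2} ∩ {x | (ε' * R / 2) ^ 2 < vs u x ^ 2},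
    {x | τ0 < tau a u x},
    GS u a t δ ϱ ε' τ0 R]
  have cx : Continuous (fun x : Fin 4 → ℝ => x 0 ^ 2 + x 1 ^ 2 + x 2 ^ 2) := by fun_prop
  have m1 : MeasurableSet {x : Fin 4 → ℝ | defi u x ≤ δ * psi u x ^ 2} :=
    measurableSet_le cD.measurable (continuous_const.mul (cψ.pow 2)).measurable
  have hSm : ∀ i ∈ (Finset.univ : Finset (Fin 6)), MeasurableSet (S i) := by
    intro i _
    fin_cases i
    · exact measurableSet_le cψ.measurable measurable_const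
    · exact measurableSet_lt (continuous_const.mul (cψ.pow 2)).measurable cD.measurable
    · exact measurableSet_lt cx.measurable measurable_const
    · exact m1.inter (measurableSet_lt measurable_const (cvs.pow 2).measurable)
    · exact measurableSet_lt measurable_const cτ1.continuous.measurable
    · exact GS_meas hu hp _ _ _ _ _ _ _
  have hcov : ∀ x ∈ eb 4 R, ∃ i ∈ (Finset.univ : Finset (Fin 6)), x ∈ S i := by
    intro x _
    by_cases c0 : psi u x ≤ t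
    · exact ⟨0, Finset.mem_univ _, c0⟩
    by_cases c1 : δ * psi u x ^ 2 < defi u x
    · exact ⟨1, Finset.mem_univ _, c1⟩
    by_cases c2 : x 0 ^ 2 + x 1 ^ 2 + x 2 ^ 2 < (ϱ * R) ^ 2
    · exact ⟨2, Finset.mem_univ _, c2⟩
    by_cases c3 : (ε' * R / 2) ^ 2 < vs u x ^ 2
    · exact ⟨3, Finset.mem_univ _, ⟨not_lt.mp c1, c3⟩⟩
    by_cases c4 : τ0 < tau a u x
    · exact ⟨4, Finset.mem_univ _, c4⟩
    exact ⟨5, Finset.mem_univ _, ⟨⟨not_le.mp c0, not_lt.mp c1⟩, not_lt.mp c2, not_lt.mp c3,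
      not_lt.mp c4⟩⟩
  have key := cover_le (meas_eb R) (int_on_eb (gK_cont hu hp) R) (gK_nonneg hu) Finset.univ S
    hSm hcov
  rw [Fin.sum_univ_six] at key
  have r0 : ∫ x in eb 4 R ∩ S 0, gK u x ≤ k * R ^ 2 :=
    q0 hK hk0 hR1 ht0 (by rw [ht]; field_simp; exact le_refl _)
  have r1 : ∫ x in eb 4 R ∩ S 1, gK u x ≤ k * R ^ 2 := q1 hK hk0 hR1 hδp hRa
  have r2 : ∫ x in eb 4 R ∩ S 2, gK u x ≤ k * R ^ 2 := q2 hK hk0 hR1 hϱ0 hϱ1 hϱ2 hRc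
  have r3 : ∫ x in eb 4 R ∩ S 3, gK u x ≤ k * R ^ 2 := q3 hK hk0 hR1 hδ4 hε0 hε'0 hε1 hs
  have r4 : ∫ x in eb 4 R ∩ S 4, gK u x ≤ k * R ^ 2 :=
    q4 hK hk0 hR1 hτ hτ00 hC50 hε2 (s5 R hR1 ε hε0.le hs)
  have r5 : ∫ x in eb 4 R ∩ S 5, gK u x ≤ 3 * (k * R ^ 2) :=
    q5 hK haa hτ hk0 hR1 hϱ0 hϱ1 hδ4 hδδ (by rw [hε']; exact min_le_left _ _) hε'0
      (by rw [hτ0]; exact min_le_left _ _) hτ00 hC60 hC70 (by rw [hτ0]; exact min_le_right _ _)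
      (by rw [hε']; exact min_le_right _ _) (fun x hx => hM u hu x hx) hRb
      (s6 R hR1 τ0 hτ00) (s7 R hR1 ε' hε'0) hd
  change ∫ x in eb 4 R, gK u x ≤ _
  have : θ = 8 * k := by rw [hk]; ring
  rw [this]
  linarith

end Vale.Agent.P134.H981
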