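import Vale.Agent.P134.SM.Nu2

set_option linter.all false

/-! The function `κ = x·ν - d`, `u = tanh (d/√2)`, and its equation. -/

namespace Vale.Agent.P134.H981

open Vale.Agent.P134 Vale.Agent.P134.SM Filter Topology

variable {n : ℕ} {u : (Fin n → ℝ) → ℝ} {x : Fin n → ℝ}

lemma two_gs_le (hu : Sol u) (x : Fin n → ℝ) : 2 * gs u x ≤ psi u x ^ 2 := hu.modica x

lemma psi_pos (hu : Sol u) (h : 0 < gs u x) : 0 < psi u x := by
  have h1 := two_gs_le hu x
  have h2 := hu.psi_nonneg x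
  rcases h2.eq_or_lt with h3 | h3
  · rw [← h3] at h1; norm_num at h1; linarith
  · exact h3

lemma one_add_pos (hu : Sol u) (h : 0 < gs u x) : 0 < 1 + u x := by
  have h1 := psi_pos hu h
  have h2 := abs_le.mp (hu.bd x)
  unfold psi at h1
  rcases h2.1.eq_or_lt with h3 | h3
  · rw [← h3] at h1; norm_num at h1
  · linarith

lemma one_sub_pos (hu : Sol u) (h : 0 < gs u x) : 0 < 1 - u x := by
  have h1 := psi_pos hu h
  have h2 := abs_le.mp (hu.bd x)
  unfold psi at h1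
  rcases h2.2.eq_or_lt with h3 | h3
  · rw [h3] at h1; norm_num at h1
  · linarith

/-- `d = √2 artanh u`. -/
noncomputable def dph (u : (Fin n → ℝ) → ℝ) (x : Fin n → ℝ) : ℝ :=
  (Real.log (1 + u x) - Real.log (1 - u x)) / Real.sqrt 2

lemma dph_cda (hu : Sol u) (h : 0 < gs u x) (m : ℕ) : ContDiffAt ℝ m (dph u) x := by
  unfold dph
  have hc : ContDiffAt ℝ m u x := (Sol.contDiff_nat hu m).contDiffAt
  exact (((contDiffAt_const.add hc).log (one_add_pos hu h).ne').sub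
    ((contDiffAt_const.sub hc).log (one_sub_pos hu h).ne')).div_const _

lemma pd_dph (hu : Sol u) (h : 0 < gs u x) (k : Fin n) :
    pd k (dph u) x = Real.sqrt 2 * pd k u x / psi u x := by
  have h1 := one_add_pos hu h
  have h2 := one_sub_pos hu h
  have h3 := psi_pos hu h
  have hd : DifferentiableAt ℝ u x := dif hu.c2 x
  let g : ℝ → ℝ := fun t => (Real.log (1 + t) - Real.log (1 - t)) / Real.sqrt 2
  have hg : HasDerivAt g ((1 / (1 + u x) - (-1) / (1 - u x)) / Real.sqrt 2) (u x) := by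
    have e1 : HasDerivAt (fun t : ℝ => Real.log (1 + t)) (1 / (1 + u x)) (u x) := by
      have := ((hasDerivAt_id (u x)).const_add 1).log h1.ne'
      simpa using this
    have e2 : HasDerivAt (fun t : ℝ => Real.log (1 - t)) ((-1) / (1 - u x)) (u x) := by
      have := ((hasDerivAt_id (u x)).const_sub 1).log h2.ne'
      simpa using this
    exact (e1.sub e2).div_const _
  have e : dph u = fun y => g (u y) := rfl
  rw [e, pd_comp hg.differentiableAt hd, hg.deriv]
  have hs : Real.sqrt 2 * Real.sqrt 2 = 2 := Real.mul_self_sqrt (by norm_num)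
  have hs0 : Real.sqrt 2 ≠ 0 := by positivity
  unfold psi
  have h4 : 1 - u x ^ 2 ≠ 0 := by
    have : 1 - u x ^ 2 = (1 + u x) * (1 - u x) := by ring
    rw [this]; exact mul_ne_zero h1.ne' h2.ne'
  field_simp
  have hs' : Real.sqrt 2 ^ 2 = 2 := Real.sq_sqrt (by norm_num)
  rw [hs']; ring

/-- `κ = x·ν - d`. -/
noncomputable def kap (u : (Fin n → ℝ) → ℝ) (x : Fin n → ℝ) : ℝ := vs u x - dph u x

lemma vs_cda (hu : Sol u) (h : 0 < gs u x) (m : ℕ) : ContDiffAt ℝ m (vs u) x := by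
  have e : vs u = fun y => rd u y / wn u y := rfl
  rw [e]
  have hr : ContDiff ℝ m (rd u) := by
    unfold rd
    exact ContDiff.sum fun i _ => (coord_c2 i).mul (Sol.pd_inf hu i m)
  exact hr.contDiffAt.div (Sol.wn_cda hu h m) (wn_pos h).ne'

lemma kap_cda (hu : Sol u) (h : 0 < gs u x) (m : ℕ) : ContDiffAt ℝ m (kap u) x :=
  (vs_cda hu h m).sub (dph_cda hu h m)

lemma pd_kap (hu : Sol u) (h : 0 < gs u x) (k : Fin n) :
    pd k (kap u) x = pd k (vs u) x - Real.sqrt 2 * pd k u x / psi u x := by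
  unfold kap
  rw [pd_sub ((vs_cda hu h 1).differentiableAt (by norm_num))
    ((dph_cda hu h 1).differentiableAt (by norm_num)), pd_dph hu h]

lemma pd_kap' (hu : Sol u) (h : 0 < gs u x) (k : Fin n) :
    pd k (kap u) x = pd k (vs u) x - (Real.sqrt 2 * wn u x / psi u x) * nu u k x := by
  rw [pd_kap hu h, pd_eq_wn_mul_nu h k]; ring

lemma pd_vs_simple (hu : Sol u) (h : 0 < gs u x) (k : Fin n) :
    pd k (vs u) x = nu u k x + ∑ i, x i * pd k (nu u i) x := by
  rw [Sol.pd_vs_eq hu h, add_assoc, Finset.sum_mul, ← Finset.sum_add_distrib]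
  congr 1
  refine Finset.sum_congr rfl fun i _ => ?_
  unfold sff; ring

lemma gs_vs_le (hu : Sol u) (h : 0 < gs u x) :
    gs (vs u) x ≤ 2 + 2 * (∑ i, x i ^ 2) * dn u x := by
  have h1 := sum_nu_sq h
  unfold gs
  have e : ∀ k, pd k (vs u) x ^ 2 ≤ 2 * nu u k x ^ 2 + 2 * ((∑ i, x i ^ 2) * ∑ i, pd k (nu u i) x ^ 2) := by
    intro k
    rw [pd_vs_simple hu h]
    have := Finset.sum_mul_sq_le_sq_mul_sq Finset.univ x (fun i => pd k (nu u i) x)
    nlinarith [sq_nonneg (nu u k x - ∑ i, x i * pd k (nu u i) x)]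
  refine (Finset.sum_le_sum fun k _ => e k).trans (le_of_eq ?_)
  rw [Finset.sum_add_distrib, ← Finset.mul_sum, h1, ← Finset.mul_sum, ← Finset.mul_sum]
  have : ∑ k, ∑ i, pd k (nu u i) x ^ 2 = dn u x := by unfold dn; rw [Finset.sum_comm]
  rw [this]; ring

lemma gs_kap_le (hu : Sol u) (h : 0 < gs u x) :
    gs (kap u) x ≤ 6 + 4 * (∑ i, x i ^ 2) * dn u x := by
  have h1 := gs_vs_le hu h
  have h3 := psi_pos hu h
  have h4 := two_gs_le hu x
  have hs : Real.sqrt 2 ^ 2 = 2 := Real.sq_sqrt (by norm_num)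
  have e : ∀ k, pd k (kap u) x ^ 2 ≤ 2 * pd k (vs u) x ^ 2 + 4 * pd k u x ^ 2 / psi u x ^ 2 := by
    intro k
    rw [pd_kap hu h]
    have : (Real.sqrt 2 * pd k u x / psi u x) ^ 2 = 2 * pd k u x ^ 2 / psi u x ^ 2 := by
      rw [div_pow, mul_pow, hs]
    have h5 : 4 * pd k u x ^ 2 / psi u x ^ 2 = 2 * (2 * pd k u x ^ 2 / psi u x ^ 2) := by ring
    rw [h5, ← this]
    nlinarith [sq_nonneg (pd k (vs u) x + Real.sqrt 2 * pd k u x / psi u x)]
  have e2 : gs (kap u) x ≤ 2 * gs (vs u) x + 4 * gs u x / psi u x ^ 2 := by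
    unfold gs
    refine (Finset.sum_le_sum fun k _ => e k).trans (le_of_eq ?_)
    rw [Finset.sum_add_distrib, ← Finset.mul_sum, ← Finset.sum_div, ← Finset.mul_sum]
  have h6 : 4 * gs u x / psi u x ^ 2 ≤ 2 := by
    rw [div_le_iff₀ (by positivity)]; linarith
  linarith

/-- The right hand side of the equation of `κ`. -/
noncomputable def Qk (u : (Fin n → ℝ) → ℝ) (x : Fin n → ℝ) : ℝ :=
  ∑ k, pd k (fun y => wn u y ^ 2 * pd k (kap u) y) x

/-- `div (w²∇d) = √2 (-3 u w² + 2 u w⁴/ψ² - ∇D·∇u/ψ)`. -/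
lemma div_dph (hu : Sol u) (h : 0 < gs u x) :
    ∑ k, pd k (fun y => wn u y ^ 2 * pd k (dph u) y) x
      = Real.sqrt 2 * (-3 * u x * gs u x + 2 * u x * gs u x ^ 2 / psi u x ^ 2
        - gg (defi u) u x / psi u x) := by
  have hev := Sol.ev_pos hu h
  have h3 := psi_pos hu h
  have e1 : ∀ k, pd k (fun y => wn u y ^ 2 * pd k (dph u) y) x
      = pd k (fun y => (Real.sqrt 2 * (gs u y * pd k u y)) / psi u y) x := by
    intro k
    apply pd_congr
    filter_upwards [hev] with y hy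
    rw [wn_sq, pd_dph hu hy]; ring
  have dg : DifferentiableAt ℝ (gs u) x := dif (Sol.gs_c2 hu) x
  have dψ : DifferentiableAt ℝ (psi u) x := dif hu.psi_contDiff x
  have e2 : ∀ k, pd k (fun y => (Real.sqrt 2 * (gs u y * pd k u y)) / psi u y) x
      = Real.sqrt 2 * ((pd k (gs u) x * pd k u x + gs u x * pd k (pd k u) x) / psi u x
        + 2 * u x * gs u x * pd k u x ^ 2 / psi u x ^ 2) := by
    intro k
    have d1 : DifferentiableAt ℝ (fun y => gs u y * pd k u y) x := dg.mul (dif_pd hu.c2 k x)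
    rw [pd_div (d1.const_mul _) dψ h3.ne',
      pd_mul (f := fun _ => Real.sqrt 2) (differentiableAt_const _) d1, pd_const,
      pd_mul dg (dif_pd hu.c2 k x), hu.pd_psi]
    field_simp
    ring
  have e3 : ∀ k, pd k (gs u) x = -2 * u x * psi u x * pd k u x - pd k (defi u) x := by
    intro k
    rw [Sol.pd_defi hu, pd_gs hu.c2]
    unfold psi; ring
  rw [Finset.sum_congr rfl fun k _ => e1 k, Finset.sum_congr rfl fun k _ => e2 k,
    ← Finset.mul_sum]
  congr 1
  have e4 : ∀ k, (pd k (gs u) x * pd k u x + gs u x * pd k (pd k u) x) / psi u x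
        + 2 * u x * gs u x * pd k u x ^ 2 / psi u x ^ 2
      = (-2 * u x) * pd k u x ^ 2 - (pd k (defi u) x * pd k u x) / psi u x
        + (gs u x / psi u x) * pd k (pd k u) x
        + (2 * u x * gs u x / psi u x ^ 2) * pd k u x ^ 2 := by
    intro k
    rw [e3 k]
    field_simp
  rw [Finset.sum_congr rfl fun k _ => e4 k, Finset.sum_add_distrib, Finset.sum_add_distrib,
    Finset.sum_sub_distrib, ← Finset.mul_sum, ← Finset.mul_sum, ← Finset.mul_sum,
    ← Finset.sum_div, hu.eq]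
  have e5 : ∑ k, pd k u x ^ 2 = gs u x := rfl
  have e6 : ∑ k, pd k (defi u) x * pd k u x = gg (defi u) u x := rfl
  rw [e5, e6]
  have e7 : u x ^ 3 - u x = - (u x * psi u x) := by unfold psi; ring
  rw [e7]
  field_simp
  ring

/-- The equation of `κ`. -/
lemma Qk_eq (hu : Sol u) (h : 0 < gs u x) :
    Qk u x = 2 * wn u x * (u x ^ 3 - u x) - wn u x ^ 2 * dn u x * vs u x
      - Real.sqrt 2 * (-3 * u x * gs u x + 2 * u x * gs u x ^ 2 / psi u x ^ 2
        - gg (defi u) u x / psi u x) := by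
  have hev := Sol.ev_pos hu h
  unfold Qk
  rw [← Sol.div_vs hu h, ← div_dph hu h, ← Finset.sum_sub_distrib]
  refine Finset.sum_congr rfl fun k _ => ?_
  have d1 : DifferentiableAt ℝ (fun y => wn u y ^ 2 * pd k (vs u) y) x := by
    have a1 : DifferentiableAt ℝ (wn u) x := da (Sol.wn_c2 hu h)
    have a2 : DifferentiableAt ℝ (pd k (vs u)) x := by
      have : ContDiffAt ℝ 2 (vs u) x := by exact_mod_cast vs_cda hu h 2
      exact da_pd this k
    exact (a1.fun_pow 2).mul a2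
  have d2 : DifferentiableAt ℝ (fun y => wn u y ^ 2 * pd k (dph u) y) x := by
    have a1 : DifferentiableAt ℝ (wn u) x := da (Sol.wn_c2 hu h)
    have a2 : DifferentiableAt ℝ (pd k (dph u)) x := by
      have : ContDiffAt ℝ 2 (dph u) x := by exact_mod_cast dph_cda hu h 2
      exact da_pd this k
    exact (a1.fun_pow 2).mul a2
  rw [← pd_sub d1 d2]
  apply pd_congr
  filter_upwards [hev] with y hy
  unfold kap
  rw [pd_sub ((vs_cda hu hy 1).differentiableAt (by norm_num))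
    ((dph_cda hu hy 1).differentiableAt (by norm_num))]
  ring

/-- Bound of the right hand side. -/
lemma abs_Qk_le (hu : Sol u) (h : 0 < gs u x) :
    |Qk u x| ≤ 6 * defi u x + wn u x ^ 2 * dn u x * |vs u x| + Real.sqrt (gs (defi u) x) := by
  have h3 := psi_pos hu h
  have hs : Real.sqrt 2 ^ 2 = 2 := Real.sq_sqrt (by norm_num)
  have hs0 : 0 < Real.sqrt 2 := by positivity
  have hw := wn_pos h
  have hw2 := wn_sq u x
  set ρ : ℝ := Real.sqrt 2 * wn u x / psi u x with hρ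
  have hρ0 : 0 < ρ := by positivity
  have hwρ : wn u x = ρ * psi u x / Real.sqrt 2 := by rw [hρ]; field_simp
  have hg : gs u x = ρ ^ 2 * psi u x ^ 2 / 2 := by
    rw [← hw2, hwρ, div_pow, mul_pow, hs]
  have hρ1 : ρ ≤ 1 := by
    have h4 := two_gs_le hu x
    rw [hg] at h4
    have h5 : ρ ^ 2 * psi u x ^ 2 ≤ 1 * psi u x ^ 2 := by linarith
    have h6 : ρ ^ 2 ≤ 1 := le_of_mul_le_mul_right h5 (by positivity)
    nlinarith
  have hD : 2 * defi u x = psi u x ^ 2 * (1 - ρ ^ 2) := by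
    rw [defi_eq, hg]; ring
  -- main algebraic identity
  have main : 2 * wn u x * (u x ^ 3 - u x)
      - Real.sqrt 2 * (-3 * u x * gs u x + 2 * u x * gs u x ^ 2 / psi u x ^ 2)
      = - (Real.sqrt 2 / 2 * u x * psi u x ^ 2 * (ρ * (1 - ρ) ^ 2 * (2 + ρ))) := by
    have e7 : u x ^ 3 - u x = - (u x * psi u x) := by unfold psi; ring
    rw [e7, hg, hwρ]
    field_simp
    rw [hs]
    ring
  have hQ : Qk u x = - (Real.sqrt 2 / 2 * u x * psi u x ^ 2 * (ρ * (1 - ρ) ^ 2 * (2 + ρ)))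
      - wn u x ^ 2 * dn u x * vs u x + Real.sqrt 2 * (gg (defi u) u x / psi u x) := by
    rw [Qk_eq hu h, ← main]; ring
  have hu1 := hu.bd x
  have b1 : |Real.sqrt 2 / 2 * u x * psi u x ^ 2 * (ρ * (1 - ρ) ^ 2 * (2 + ρ))| ≤ 6 * defi u x := by
    rw [abs_mul, abs_mul, abs_mul, abs_of_nonneg (show (0:ℝ) ≤ Real.sqrt 2 / 2 by positivity),
      abs_of_nonneg (show (0:ℝ) ≤ psi u x ^ 2 by positivity),
      abs_of_nonneg (show (0:ℝ) ≤ ρ * (1 - ρ) ^ 2 * (2 + ρ) by positivity)]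
    have c1 : Real.sqrt 2 / 2 * |u x| ≤ 1 := by
      have : Real.sqrt 2 ≤ 2 := by nlinarith
      nlinarith [abs_nonneg (u x)]
    have c2 : ρ * (1 - ρ) ^ 2 * (2 + ρ) ≤ 3 * (1 - ρ ^ 2) := by
      have : ρ * (1 - ρ) ^ 2 * (2 + ρ) = (1 - ρ) * (ρ * (1 - ρ) * (2 + ρ)) := by ring
      rw [this, show 3 * (1 - ρ ^ 2) = (1 - ρ) * (3 * (1 + ρ)) by ring]
      refine mul_le_mul_of_nonneg_left ?_ (by linarith)
      nlinarith [mul_pos hρ0 hρ0]
    calc Real.sqrt 2 / 2 * |u x| * psi u x ^ 2 * (ρ * (1 - ρ) ^ 2 * (2 + ρ))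
        ≤ 1 * psi u x ^ 2 * (3 * (1 - ρ ^ 2)) := by gcongr
      _ = 6 * defi u x := by
        have : 6 * defi u x = 3 * (2 * defi u x) := by ring
        rw [this, hD]; ring
  have b3 : |Real.sqrt 2 * (gg (defi u) u x / psi u x)| ≤ Real.sqrt (gs (defi u) x) := by
    rw [abs_mul, abs_of_pos hs0, abs_div, abs_of_pos h3]
    have h8 : |gg (defi u) u x| ≤ Real.sqrt (gs (defi u) x) * wn u x := by
      have := gg_sq_le (defi u) u x
      rw [← Real.sqrt_sq_eq_abs]
      unfold wn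
      rw [← Real.sqrt_mul (gs_nonneg _ _)]
      exact Real.sqrt_le_sqrt this
    calc Real.sqrt 2 * (|gg (defi u) u x| / psi u x)
        ≤ Real.sqrt 2 * ((Real.sqrt (gs (defi u) x) * wn u x) / psi u x) := by gcongr
      _ = Real.sqrt (gs (defi u) x) * ρ := by rw [hρ]; ring
      _ ≤ Real.sqrt (gs (defi u) x) * 1 := by gcongr
      _ = _ := mul_one _
  have b2 : |wn u x ^ 2 * dn u x * vs u x| = wn u x ^ 2 * dn u x * |vs u x| := by
    rw [abs_mul, abs_of_nonneg (mul_nonneg (sq_nonneg _) (dn_nonneg u x))]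
  rw [hQ]
  calc |-(Real.sqrt 2 / 2 * u x * psi u x ^ 2 * (ρ * (1 - ρ) ^ 2 * (2 + ρ)))
      - wn u x ^ 2 * dn u x * vs u x + Real.sqrt 2 * (gg (defi u) u x / psi u x)|
      ≤ |-(Real.sqrt 2 / 2 * u x * psi u x ^ 2 * (ρ * (1 - ρ) ^ 2 * (2 + ρ)))
          - wn u x ^ 2 * dn u x * vs u x| + |Real.sqrt 2 * (gg (defi u) u x / psi u x)| :=
        abs_add_le _ _
    _ ≤ (|-(Real.sqrt 2 / 2 * u x * psi u x ^ 2 * (ρ * (1 - ρ) ^ 2 * (2 + ρ)))|
          + |wn u x ^ 2 * dn u x * vs u x|) + |Real.sqrt 2 * (gg (defi u) u x / psi u x)| := by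
        gcongr; exact abs_sub _ _
    _ ≤ _ := by rw [abs_neg, b2]; linarith

end Vale.Agent.P134.H981
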