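import Vale.Agent.P134.H981.Trunc

set_option linter.all false

/-! Step 1.5: the identity (*). -/

namespace Vale.Agent.P134.H981

open Vale.Agent.P134 Vale.Agent.P134.SM Filter Topology MeasureTheory

variable {n : ℕ} {u f g : (Fin n → ℝ) → ℝ} {x : Fin n → ℝ}

lemma th_c2 : ContDiff ℝ 2 th :=
  Real.smoothTransition.contDiff.comp (contDiff_const.sub contDiff_id)

lemma dth_c1 : ContDiff ℝ 1 (deriv th) := by
  have : ContDiff ℝ (1 + 1) th := by
    have e : ((1:WithTop ℕ∞) + 1) = 2 := by norm_num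
    rw [e]; exact th_c2
  exact ((contDiff_succ_iff_deriv).mp this).2.2

lemma dth_zero {t : ℝ} (h : 2 ≤ t) : deriv th t = 0 := by
  rcases h.eq_or_lt with h | h
  · -- continuity
    have hc : Continuous (deriv th) := dth_c1.continuous
    have h1 : Tendsto (deriv th) (𝓝[>] t) (𝓝 (deriv th t)) := hc.continuousAt.mono_left nhdsWithin_le_nhds
    have h2 : Tendsto (deriv th) (𝓝[>] t) (𝓝 0) := by
      refine tendsto_const_nhds.congr' ?_
      filter_upwards [self_mem_nhdsWithin] with s hs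
      exact (th_deriv_of_gt (by rw [h]; exact hs)).symm
    exact tendsto_nhds_unique h1 h2
  · exact th_deriv_of_gt h

lemma ddth_zero {t : ℝ} (h : 2 < t) : deriv (deriv th) t = 0 := by
  have : deriv th =ᶠ[𝓝 t] fun _ => 0 := by
    filter_upwards [Ioi_mem_nhds h] with s hs using dth_zero (le_of_lt hs)
  rw [this.deriv_eq]; simp

lemma ddth_zero' {t : ℝ} (h : t < 1) : deriv (deriv th) t = 0 := by
  have : deriv th =ᶠ[𝓝 t] fun _ => 0 := by
    filter_upwards [Iio_mem_nhds h] with s hs using th_deriv_of_lt hs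
  rw [this.deriv_eq]; simp

lemma exists_ddth_bound : ∃ C : ℝ, 1 ≤ C ∧ (∀ t, |deriv th t| ≤ C) ∧ ∀ t, |deriv (deriv th) t| ≤ C := by
  obtain ⟨C1, hC1, hC1'⟩ := exists_th_bound
  have hc : Continuous (deriv (deriv th)) := dth_c1.continuous_deriv (by norm_num)
  obtain ⟨C, hC⟩ := (isCompact_Icc (a := (1:ℝ)) (b := 2)).exists_bound_of_continuousOn
    hc.continuousOn
  refine ⟨max C C1, hC1.trans (le_max_right _ _), fun t => (hC1' t).trans (le_max_right _ _),
    fun t => ?_⟩
  by_cases h1 : t < 1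
  · rw [ddth_zero' h1, abs_zero]; exact le_max_of_le_right (by linarith)
  by_cases h2 : 2 < t
  · rw [ddth_zero h2, abs_zero]; exact le_max_of_le_right (by linarith)
  exact (hC t ⟨not_lt.mp h1, not_lt.mp h2⟩).trans (le_max_left _ _)

/-- `Φ'(|x|²/R²)`. -/
noncomputable def p1 (R : ℝ) (x : Fin n → ℝ) : ℝ := deriv th (rho Finset.univ x / R ^ 2)
/-- `Φ''(|x|²/R²)`. -/
noncomputable def p2 (R : ℝ) (x : Fin n → ℝ) : ℝ := deriv (deriv th) (rho Finset.univ x / R ^ 2)

lemma p1_c1 (R : ℝ) : ContDiff ℝ 1 (p1 (n := n) R) :=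
  dth_c1.comp ((rho_contDiff _).div_const _)

lemma p2_cont (R : ℝ) : Continuous (p2 (n := n) R) :=
  (dth_c1.continuous_deriv (by norm_num)).comp ((rho_contDiff (k := 0) _).continuous.div_const _)

lemma p1_zero {R : ℝ} (hR : 0 < R) (hx : x ∉ eb n (2 * R)) : p1 R x = 0 := by
  unfold p1
  apply dth_zero
  rw [le_div_iff₀ (by positivity)]
  unfold eb at hx
  simp only [Set.mem_setOf_eq, not_le] at hx
  nlinarith [sq_nonneg R]

lemma p2_zero {R : ℝ} (hR : 0 < R) (hx : x ∉ eb n (2 * R)) : p2 R x = 0 := by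
  unfold p2
  apply ddth_zero
  rw [lt_div_iff₀ (by positivity)]
  unfold eb at hx
  simp only [Set.mem_setOf_eq, not_le] at hx
  nlinarith [sq_nonneg R, sq_pos_of_pos hR]

lemma p1_hcs {R : ℝ} (hR : 0 < R) : HasCompactSupport (p1 (n := n) R) :=
  HasCompactSupport.intro (isCompact_eb (2 * R)) fun _ hx => p1_zero hR hx

lemma p2_hcs {R : ℝ} (hR : 0 < R) : HasCompactSupport (p2 (n := n) R) :=
  HasCompactSupport.intro (isCompact_eb (2 * R)) fun _ hx => p2_zero hR hx

lemma pd_ct (R : ℝ) (k : Fin n) (x : Fin n → ℝ) : pd k (ct R) x = p1 R x * (2 * x k / R ^ 2) := by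
  unfold ct p1
  rw [pd_cutb]; simp

lemma pd_p1 (R : ℝ) (k : Fin n) (x : Fin n → ℝ) : pd k (p1 R) x = p2 R x * (2 * x k / R ^ 2) := by
  have h1 : DifferentiableAt ℝ (fun y : Fin n → ℝ => rho Finset.univ y / R ^ 2) x :=
    ((rho_contDiff (k := 1) _).div_const _).differentiable (by norm_num) x
  have e : p1 (n := n) R = fun y => (deriv th) (rho Finset.univ y / R ^ 2) := rfl
  rw [e, pd_comp (h := deriv th) (dth_c1.differentiable (by norm_num) _) h1]
  unfold p2
  congr 1
  have : (fun y : Fin n → ℝ => rho Finset.univ y / R ^ 2) = fun y => (R ^ 2)⁻¹ * rho Finset.univ y := by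
    ext y; rw [div_eq_inv_mul]
  rw [this, pd_mul (differentiableAt_const _) ((rho_contDiff (k := 1) _).differentiable
    (by norm_num) x), pd_const, pd_rho]
  simp
  field_simp

/-- The field `V = w a - τ ∇u`. -/
noncomputable def Vf (a : Fin n → ℝ) (u : (Fin n → ℝ) → ℝ) (k : Fin n) (x : Fin n → ℝ) : ℝ :=
  wn u x * a k - tau a u x * pd k u x

lemma Vf_c1 (hu : Sol u) (h : ∀ x, 0 < gs u x) (a : Fin n → ℝ) (k : Fin n) :
    ContDiff ℝ 1 (Vf a u k) := by
  unfold Vf
  have c1 : ContDiff ℝ 1 (wn u) := by exact_mod_cast wn_cd hu h 1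
  have c2 : ContDiff ℝ 1 (tau a u) := by exact_mod_cast tau_cd hu h a 1
  exact (c1.mul contDiff_const).sub (c2.mul (contDiff_pd_one hu.c2))

lemma sum_Vf_sq (hu : Sol u) (h : 0 < gs u x) {a : Fin n → ℝ} (ha : ∑ i, a i ^ 2 = 1) :
    ∑ k, Vf a u k x ^ 2 ≤ wn u x ^ 2 := by
  have hw := wn_pos h
  have e : ∀ k, Vf a u k x ^ 2 = wn u x ^ 2 * a k ^ 2 - 2 * wn u x * tau a u x * (a k * pd k u x)
      + tau a u x ^ 2 * pd k u x ^ 2 := by intro k; unfold Vf; ring
  rw [Finset.sum_congr rfl fun k _ => e k, Finset.sum_add_distrib, Finset.sum_sub_distrib,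
    ← Finset.mul_sum, ← Finset.mul_sum, ← Finset.mul_sum, ha]
  have e2 : ∑ k, a k * pd k u x = tau a u x * wn u x := by
    have : dd a u x = tau a u x * wn u x := by unfold tau; field_simp
    exact this
  have e3 : ∑ k, pd k u x ^ 2 = wn u x ^ 2 := by rw [wn_sq]; rfl
  rw [e2, e3]
  nlinarith [sq_nonneg (tau a u x * wn u x)]

/-- The identity (*). -/
lemma star_id (hu : Sol u) (h : ∀ x, 0 < gs u x) (a : Fin n → ℝ) {R : ℝ} (hR : 0 < R) :
    ∫ x, (wn u x ^ 2 * dn u x * tau a u x) * ct R x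
      = (2 / R ^ 2) * (∫ x, rd u x * (tau a u x * (wn u x * mc u x)) * p1 R x)
        - (4 / R ^ 4) * ∫ x, rd u x * (∑ k, Vf a u k x * x k) * p2 R x := by
  have cτ1 : ContDiff ℝ 1 (tau a u) := by exact_mod_cast tau_cd hu h a 1
  have cτ2 : ContDiff ℝ 2 (tau a u) := by exact_mod_cast tau_cd hu h a 2
  have cw1 : ContDiff ℝ 1 (wn u) := by exact_mod_cast wn_cd hu h 1
  have cW : ContDiff ℝ 1 (fun x => wn u x ^ 2) := cw1.pow 2
  have crd : ContDiff ℝ 1 (rd u) := (Sol.rd_c2 hu).of_le (by norm_num)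
  have cmc : Continuous (mc u) := by
    unfold mc
    exact continuous_finsetSum _ fun i _ => continuous_pd (by exact_mod_cast nu_cd hu h i 1)
  have hp1 := p1_hcs (n := n) hR
  have hp2 := p2_hcs (n := n) hR
  have cp1 := p1_c1 (n := n) R
  have cp2 := p2_cont (n := n) R
  -- first step
  have s1 := div_test (V := fun k y => wn u y ^ 2 * pd k (tau a u) y)
    (fun k => cW.mul (contDiff_pd_one cτ2)) (ct_c1 (n := n) R) (ct_hcs hR)
  simp_rw [fun x => Sol.div_tau hu (h x) a] at s1
  have s2 : ∫ x, (wn u x ^ 2 * dn u x * tau a u x) * ct R x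
      = ∫ x, (2 / R ^ 2) * (∑ k, (Vf a u k x * p1 R x) * pd k (rd u) x) := by
    have e0 : ∫ x, (wn u x ^ 2 * dn u x * tau a u x) * ct R x
        = - ∫ x, -(wn u x ^ 2 * dn u x * tau a u x) * ct R x := by
      rw [← integral_neg]; congr 1; ext x; ring
    rw [e0, s1, neg_neg]
    congr 1; ext x
    have e1 : ∀ k, wn u x ^ 2 * pd k (tau a u) x * pd k (ct R) x
        = (2 / R ^ 2) * p1 R x * (x k * (wn u x ^ 2 * pd k (tau a u) x)) := by
      intro k; rw [pd_ct]; ring
    rw [Finset.sum_congr rfl fun k _ => e1 k, ← Finset.mul_sum, Sol.x_dot_tau hu (h x) a,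
      Finset.mul_sum, Finset.mul_sum]
    refine Finset.sum_congr rfl fun k _ => ?_
    unfold Vf; ring
  rw [s2, integral_const_mul]
  -- second step: integrate by parts
  have hg : ∀ k, ContDiff ℝ 1 (fun x => Vf a u k x * p1 R x) := fun k => (Vf_c1 hu h a k).mul cp1
  have hgc : ∀ k, HasCompactSupport (fun x => Vf a u k x * p1 R x) := fun k => hp1.mul_left
  have i1 : ∀ k, Integrable (fun x => (Vf a u k x * p1 R x) * pd k (rd u) x) := fun k =>
    ((hg k).continuous.mul (continuous_pd crd)).integrable_of_hasCompactSupport (hgc k).mul_right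
  have i2 : ∀ k, Integrable (fun x => rd u x * pd k (fun x => Vf a u k x * p1 R x) x) := fun k =>
    (crd.continuous.mul (continuous_pd (hg k))).integrable_of_hasCompactSupport
      (hasCompactSupport_pd (hgc k)).mul_left
  have s3 : ∫ x, ∑ k, (Vf a u k x * p1 R x) * pd k (rd u) x
      = - ∫ x, ∑ k, rd u x * pd k (fun x => Vf a u k x * p1 R x) x := by
    rw [integral_finsetSum _ fun k _ => i1 k, integral_finsetSum _ fun k _ => i2 k,
      ← Finset.sum_neg_distrib]
    refine Finset.sum_congr rfl fun k _ => ?_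
    have := integral_mul_pd (i := k) crd (hg k) (hgc k)
    rw [this, neg_neg]
    congr 1; ext x; ring
  rw [s3]
  have e4 : ∀ x, ∑ k, rd u x * pd k (fun x => Vf a u k x * p1 R x) x
      = -(rd u x * (tau a u x * (wn u x * mc u x)) * p1 R x)
        + (2 / R ^ 2) * (rd u x * (∑ k, Vf a u k x * x k) * p2 R x) := by
    intro x
    have e5 : ∀ k, rd u x * pd k (fun x => Vf a u k x * p1 R x) x
        = rd u x * p1 R x * pd k (Vf a u k) x
          + (2 / R ^ 2) * (rd u x * p2 R x * (Vf a u k x * x k)) := by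
      intro k
      rw [pd_mul ((Vf_c1 hu h a k).differentiable (by norm_num) x)
        (cp1.differentiable (by norm_num) x), pd_p1]
      ring
    rw [Finset.sum_congr rfl fun k _ => e5 k, Finset.sum_add_distrib, ← Finset.mul_sum,
      ← Finset.mul_sum, ← Finset.mul_sum]
    have e6 : ∑ k, pd k (Vf a u k) x = - (tau a u x * (wn u x * mc u x)) := Sol.div_wa hu (h x) a
    rw [e6]; ring
  simp_rw [e4]
  have j1 : Integrable (fun x => -(rd u x * (tau a u x * (wn u x * mc u x)) * p1 R x)) :=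
    (((crd.continuous.mul (cτ1.continuous.mul (cw1.continuous.mul cmc))).mul
      cp1.continuous).neg).integrable_of_hasCompactSupport (hp1.mul_left).neg
  have j2 : Integrable (fun x => (2 / R ^ 2) * (rd u x * (∑ k, Vf a u k x * x k) * p2 R x)) := by
    refine Continuous.integrable_of_hasCompactSupport ?_ ((hp2.mul_left).mul_left)
    exact continuous_const.mul ((crd.continuous.mul (continuous_finsetSum _ fun k _ =>
      (Vf_c1 hu h a k).continuous.mul (continuous_apply k))).mul cp2)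
  rw [integral_add j1 j2, integral_neg, integral_const_mul]
  ring

lemma sqrt_aux {a b R : ℝ} (ha : 0 ≤ a) (hb : 0 ≤ b) (hR : 0 ≤ R) {i j k : ℕ} (hk : i + j = 2 * k) :
    Real.sqrt (a * R ^ i) * Real.sqrt (b * R ^ j) = Real.sqrt a * Real.sqrt b * R ^ k := by
  rw [← Real.sqrt_mul (by positivity)]
  have : a * R ^ i * (b * R ^ j) = (a * b) * (R ^ k) ^ 2 := by
    rw [← pow_mul, mul_comm k 2, ← hk, pow_add]; ring
  rw [this, Real.sqrt_mul (by positivity), Real.sqrt_sq (by positivity), Real.sqrt_mul ha]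

lemma mc_sq_le' (hu : Sol u) (h : 0 < gs u x) : mc u x ^ 2 ≤ n * dn u x := by
  have h1 := Sol.mc_sq_le hu h
  have h2 := Sol.dn_eq hu h
  have h3 := an_nonneg u x
  have h4 := tl_nonneg u x
  have h5 : (0:ℝ) ≤ n := Nat.cast_nonneg n
  nlinarith

/-- Step 1.5. -/
theorem step5 {C : ℝ} (hK : KB u C) {a : Fin n → ℝ} (ha : ∑ i, a i ^ 2 = 1)
    (hτ : ∀ x, 0 < tau a u x) :
    ∃ C' : ℝ, 1 ≤ C' ∧ ∀ R, 1 ≤ R → ∀ ε, 0 ≤ ε → ∫ x in eb n (2 * R), rd u x ^ 2 ≤ ε * R ^ 5 →
      ∫ x in eb n R, (wn u x ^ 2 * dn u x) * tau a u x ≤ C' * Real.sqrt ε * R := by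
  obtain ⟨C₁, hC₁, hd1, hd2⟩ := exists_ddth_bound
  have hu := hK.sol
  have hp := hK.pos
  have hC1 := hK.C1
  have hC0 : 0 ≤ C := by linarith
  have hn0 : (0:ℝ) ≤ n := Nat.cast_nonneg n
  refine ⟨2 * C₁ * Real.sqrt (2 * n * C) + 4 * C₁ * Real.sqrt (32 * C) + 1, ?_,
    fun R hR ε hε hs => ?_⟩
  · have := Real.sqrt_nonneg (2 * n * C)
    have := Real.sqrt_nonneg (32 * C)
    have : 0 ≤ 2 * C₁ * Real.sqrt (2 * n * C) := by positivity
    have : 0 ≤ 4 * C₁ * Real.sqrt (32 * C) := by positivity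
    linarith
  have hR0 : 0 < R := by linarith
  have h2R : (1:ℝ) ≤ 2 * R := by linarith
  have cτ1 : ContDiff ℝ 1 (tau a u) := by exact_mod_cast tau_cd hu hp a 1
  have cw1 : ContDiff ℝ 1 (wn u) := by exact_mod_cast wn_cd hu hp 1
  have cdn := dn_cont hu hp
  have crd : Continuous (rd u) := (Sol.rd_c2 hu).continuous
  have cmc : Continuous (mc u) := by
    unfold mc
    exact continuous_finsetSum _ fun i _ => continuous_pd (by exact_mod_cast nu_cd hu hp i 1)
  have cN : Continuous (fun x => (wn u x ^ 2 * dn u x) * tau a u x) :=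
    ((cw1.continuous.pow 2).mul cdn).mul cτ1.continuous
  have s1 := hK.st (2 * R) h2R
  have s2 := hK.en (2 * R) h2R
  have hA : ∫ x in eb n (2 * R), rd u x ^ 2 ≤ Real.sqrt (ε * R ^ 5) ^ 2 := by
    rw [Real.sq_sqrt (by positivity)]; exact hs
  -- `I1`
  have b1 : ∫ x in eb n (2 * R), |rd u x| * |wn u x * mc u x|
      ≤ Real.sqrt (ε * R ^ 5) * Real.sqrt ((2 * n * C) * R ^ 1) := by
    refine cs_eb crd (cw1.continuous.mul cmc) (r := 2 * R) (subset_refl _) (Real.sqrt_nonneg _)
      (Real.sqrt_nonneg _) hA ?_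
    rw [Real.sq_sqrt (by positivity)]
    calc ∫ x in eb n (2 * R), (wn u x * mc u x) ^ 2
        ≤ ∫ x in eb n (2 * R), n * (wn u x ^ 2 * dn u x) := by
          refine setIntegral_mono_on (int_on_eb ((cw1.continuous.mul cmc).pow 2) _)
            ((int_on_eb ((cw1.continuous.pow 2).mul cdn) _).const_mul _) (meas_eb _) ?_
          intro x _
          have := mc_sq_le' hu (hp x)
          nlinarith [sq_nonneg (wn u x)]
      _ = n * ∫ x in eb n (2 * R), wn u x ^ 2 * dn u x := integral_const_mul _ _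
      _ ≤ n * (C * (2 * R)) := by gcongr
      _ = (2 * n * C) * R ^ 1 := by ring
  have b2 : ∫ x in eb n (2 * R), |rd u x| * |2 * R * wn u x|
      ≤ Real.sqrt (ε * R ^ 5) * Real.sqrt ((32 * C) * R ^ 5) := by
    refine cs_eb crd (continuous_const.mul cw1.continuous) (r := 2 * R) (subset_refl _)
      (Real.sqrt_nonneg _) (Real.sqrt_nonneg _) hA ?_
    rw [Real.sq_sqrt (by positivity)]
    calc ∫ x in eb n (2 * R), (2 * R * wn u x) ^ 2
        ≤ ∫ x in eb n (2 * R), (4 * R ^ 2) * psi u x ^ 2 := by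
          refine setIntegral_mono_on (int_on_eb ((continuous_const.mul cw1.continuous).pow 2) _)
            ((int_on_eb (hu.psi_contDiff.continuous.pow 2) _).const_mul _) (meas_eb _) ?_
          intro x _
          have := wn_sq_le hu x
          nlinarith [sq_nonneg R]
      _ = (4 * R ^ 2) * ∫ x in eb n (2 * R), psi u x ^ 2 := integral_const_mul _ _
      _ ≤ (4 * R ^ 2) * (C * (2 * R) ^ 3) := by gcongr
      _ = (32 * C) * R ^ 5 := by ring
  have b1' : Real.sqrt (ε * R ^ 5) * Real.sqrt ((2 * n * C) * R ^ 1)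
      = Real.sqrt ε * Real.sqrt (2 * n * C) * R ^ 3 :=
    sqrt_aux hε (by positivity) hR0.le (by norm_num)
  have b2' : Real.sqrt (ε * R ^ 5) * Real.sqrt ((32 * C) * R ^ 5)
      = Real.sqrt ε * Real.sqrt (32 * C) * R ^ 5 :=
    sqrt_aux hε (by positivity) hR0.le (by norm_num)
  rw [b1'] at b1
  rw [b2'] at b2
  have cp1 := (p1_c1 (n := n) R).continuous
  have cp2 := p2_cont (n := n) R
  have I1 : ∫ x, rd u x * (tau a u x * (wn u x * mc u x)) * p1 R x
      ≤ C₁ * (Real.sqrt ε * Real.sqrt (2 * n * C) * R ^ 3) := by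
    have hle : ∫ x, rd u x * (tau a u x * (wn u x * mc u x)) * p1 R x
        ≤ ∫ x in eb n (2 * R), C₁ * (|rd u x| * |wn u x * mc u x|) := by
      refine int_le_eb (G := fun x => C₁ * (|rd u x| * |wn u x * mc u x|))
        (continuous_const.mul ((continuous_abs.comp crd).mul
          (continuous_abs.comp (cw1.continuous.mul cmc)))) ?_ ?_ ?_
      · exact ((crd.mul (cτ1.continuous.mul (cw1.continuous.mul cmc))).mul
          cp1).integrable_of_hasCompactSupport (p1_hcs hR0).mul_left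
      · intro x hx; rw [p1_zero hR0 hx]; ring
      · intro x _
        have h1 := tau_le_one (hp x) ha
        have h2 : |p1 R x| ≤ C₁ := hd1 _
        calc rd u x * (tau a u x * (wn u x * mc u x)) * p1 R x
            ≤ |rd u x * (tau a u x * (wn u x * mc u x)) * p1 R x| := le_abs_self _
          _ = |rd u x| * (|tau a u x| * |wn u x * mc u x|) * |p1 R x| := by
            rw [abs_mul, abs_mul, abs_mul (tau a u x)]
          _ ≤ |rd u x| * (1 * |wn u x * mc u x|) * C₁ := by gcongr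
          _ = C₁ * (|rd u x| * |wn u x * mc u x|) := by ring
    rw [integral_const_mul] at hle
    exact hle.trans (by gcongr)
  have I2 : - ∫ x, rd u x * (∑ k, Vf a u k x * x k) * p2 R x
      ≤ C₁ * (Real.sqrt ε * Real.sqrt (32 * C) * R ^ 5) := by
    have cV : Continuous (fun x => ∑ k, Vf a u k x * x k) :=
      continuous_finsetSum _ fun k _ => (Vf_c1 hu hp a k).continuous.mul (continuous_apply k)
    have hle : - ∫ x, rd u x * (∑ k, Vf a u k x * x k) * p2 R x
        ≤ ∫ x in eb n (2 * R), C₁ * (|rd u x| * |2 * R * wn u x|) := by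
      rw [← integral_neg]
      refine int_le_eb (G := fun x => C₁ * (|rd u x| * |2 * R * wn u x|))
        (continuous_const.mul ((continuous_abs.comp crd).mul
          (continuous_abs.comp (continuous_const.mul cw1.continuous)))) ?_ ?_ ?_
      · exact ((crd.mul cV).mul cp2).neg.integrable_of_hasCompactSupport
          ((p2_hcs hR0).mul_left).neg
      · intro x hx; rw [p2_zero hR0 hx]; ring
      · intro x hx
        have h2 : |p2 R x| ≤ C₁ := hd2 _
        have hw := wn_nonneg u x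
        have h3 : |∑ k, Vf a u k x * x k| ≤ |2 * R * wn u x| := by
          rw [abs_of_nonneg (show 0 ≤ 2 * R * wn u x by positivity)]
          apply abs_le_of_sq_le_sq _ (by positivity)
          have h4 := Finset.sum_mul_sq_le_sq_mul_sq Finset.univ (fun k => Vf a u k x) x
          have h5 := sum_Vf_sq (x := x) hu (hp x) ha
          have h6 : ∑ i, x i ^ 2 ≤ (2 * R) ^ 2 := hx
          have h7 : 0 ≤ ∑ i, x i ^ 2 := Finset.sum_nonneg fun _ _ => sq_nonneg _
          calc (∑ k, Vf a u k x * x k) ^ 2 ≤ (∑ k, Vf a u k x ^ 2) * ∑ i, x i ^ 2 := h4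
            _ ≤ wn u x ^ 2 * (2 * R) ^ 2 := by gcongr
            _ = (2 * R * wn u x) ^ 2 := by ring
        calc -(rd u x * (∑ k, Vf a u k x * x k) * p2 R x)
            ≤ |rd u x * (∑ k, Vf a u k x * x k) * p2 R x| := neg_le_abs _
          _ = |rd u x| * |∑ k, Vf a u k x * x k| * |p2 R x| := by rw [abs_mul, abs_mul]
          _ ≤ |rd u x| * |2 * R * wn u x| * C₁ := by gcongr
          _ = C₁ * (|rd u x| * |2 * R * wn u x|) := by ring
    rw [integral_const_mul] at hle
    exact hle.trans (by gcongr)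
  have hst := star_id hu hp a hR0
  have hlow : ∫ x in eb n R, (wn u x ^ 2 * dn u x) * tau a u x
      ≤ ∫ x, (wn u x ^ 2 * dn u x * tau a u x) * ct R x := by
    have hi : Integrable (fun x => (wn u x ^ 2 * dn u x * tau a u x) * ct R x) :=
      (cN.mul (ct_c1 (n := n) R).continuous).integrable_of_hasCompactSupport (ct_hcs hR0).mul_left
    calc ∫ x in eb n R, (wn u x ^ 2 * dn u x) * tau a u x
        = ∫ x in eb n R, (wn u x ^ 2 * dn u x * tau a u x) * ct R x := by
          refine setIntegral_congr_fun (meas_eb R) fun x hx => ?_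
          rw [ct_one hR0 hx, mul_one]
      _ ≤ _ := setIntegral_le_integral hi (Eventually.of_forall fun x =>
          mul_nonneg (mul_nonneg (mul_nonneg (sq_nonneg _) (dn_nonneg _ _)) (hτ x).le)
            (ct_nonneg R x))
  rw [hst] at hlow
  refine hlow.trans ?_
  have f1 : (2 / R ^ 2) * (∫ x, rd u x * (tau a u x * (wn u x * mc u x)) * p1 R x)
      ≤ (2 / R ^ 2) * (C₁ * (Real.sqrt ε * Real.sqrt (2 * n * C) * R ^ 3)) := by gcongr
  have f2 : (4 / R ^ 4) * (- ∫ x, rd u x * (∑ k, Vf a u k x * x k) * p2 R x)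
      ≤ (4 / R ^ 4) * (C₁ * (Real.sqrt ε * Real.sqrt (32 * C) * R ^ 5)) := by gcongr
  have f3 : (2 / R ^ 2) * (C₁ * (Real.sqrt ε * Real.sqrt (2 * n * C) * R ^ 3))
      = 2 * C₁ * Real.sqrt (2 * n * C) * Real.sqrt ε * R := by field_simp
  have f4 : (4 / R ^ 4) * (C₁ * (Real.sqrt ε * Real.sqrt (32 * C) * R ^ 5))
      = 4 * C₁ * Real.sqrt (32 * C) * Real.sqrt ε * R := by field_simp
  have f5 : 0 ≤ Real.sqrt ε * R := by positivity
  nlinarith

end Vale.Agent.P134.H981
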