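import Vale.Agent.P134.SM.Nu2
import Vale.Agent.P134.H919.Mono

set_option linter.all false

/-! Integration toolkit: divergence test, Cauchy-Schwarz, Euclidean balls, radial cut-offs. -/

namespace Vale.Agent.P134.H981

open Vale.Agent.P134 Vale.Agent.P134.SM Filter Topology MeasureTheory

variable {n : ℕ} {u f g : (Fin n → ℝ) → ℝ} {x : Fin n → ℝ}

/-- Euclidean ball centred at `0`. -/
def eb (n : ℕ) (r : ℝ) : Set (Fin n → ℝ) := {x | rho Finset.univ x ≤ r ^ 2}

lemma isCompact_eb (r : ℝ) : IsCompact (eb n r) := H919.isCompact_rho_le _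

lemma meas_eb (r : ℝ) : MeasurableSet (eb n r) := (isCompact_eb r).isClosed.measurableSet

lemma eb_mono {r s : ℝ} (hr : 0 ≤ r) (h : r ≤ s) : eb n r ⊆ eb n s := by
  intro x hx
  have hx' : rho Finset.univ x ≤ r ^ 2 := hx
  exact hx'.trans (by gcongr)

lemma int_on_eb {F : (Fin n → ℝ) → ℝ} (hF : Continuous F) (r : ℝ) : IntegrableOn F (eb n r) :=
  hF.continuousOn.integrableOn_compact (isCompact_eb r)

lemma setint_mono_eb {F : (Fin n → ℝ) → ℝ} (hF : Continuous F) (hF0 : ∀ x, 0 ≤ F x) {r s : ℝ}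
    (hr : 0 ≤ r) (h : r ≤ s) : ∫ x in eb n r, F x ≤ ∫ x in eb n s, F x :=
  setIntegral_mono_set (int_on_eb hF s) (Eventually.of_forall fun x => hF0 x)
    (Eventually.of_forall (eb_mono hr h))

/-- Divergence theorem tested with a compactly supported function. -/
lemma div_test {V : Fin n → (Fin n → ℝ) → ℝ} (hV : ∀ k, ContDiff ℝ 1 (V k))
    {ξ : (Fin n → ℝ) → ℝ} (hξ : ContDiff ℝ 1 ξ) (hc : HasCompactSupport ξ) :
    ∫ x, (∑ k, pd k (V k) x) * ξ x = - ∫ x, ∑ k, V k x * pd k ξ x := by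
  have i1 : ∀ k, Integrable (fun x => pd k (V k) x * ξ x) := fun k =>
    ((continuous_pd (hV k)).mul hξ.continuous).integrable_of_hasCompactSupport hc.mul_left
  have i2 : ∀ k, Integrable (fun x => V k x * pd k ξ x) := fun k =>
    ((hV k).continuous.mul (continuous_pd hξ)).integrable_of_hasCompactSupport
      (hasCompactSupport_pd hc).mul_left
  have e : ∀ x, (∑ k, pd k (V k) x) * ξ x = ∑ k, pd k (V k) x * ξ x := fun x => Finset.sum_mul ..
  simp_rw [e]
  rw [integral_finsetSum _ fun k _ => i1 k, integral_finsetSum _ fun k _ => i2 k,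
    ← Finset.sum_neg_distrib]
  refine Finset.sum_congr rfl fun k _ => ?_
  rw [integral_mul_pd (hV k) hξ hc, neg_neg]

/-- Cauchy-Schwarz. -/
lemma cs_gen {α : Type*} [MeasurableSpace α] {μ : Measure α} {f g : α → ℝ}
    (hf : Integrable (fun x => f x ^ 2) μ) (hg : Integrable (fun x => g x ^ 2) μ)
    {A B : ℝ} (hA0 : 0 ≤ A) (hB0 : 0 ≤ B) (hA : ∫ x, f x ^ 2 ∂μ ≤ A ^ 2)
    (hB : ∫ x, g x ^ 2 ∂μ ≤ B ^ 2) : ∫ x, |f x| * |g x| ∂μ ≤ A * B := by
  have key : ∀ ε : ℝ, 0 < ε → ∫ x, |f x| * |g x| ∂μ ≤ (A + ε) * (B + ε) := by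
    intro ε hε
    have hA1 : 0 < A + ε := by linarith
    have hB1 : 0 < B + ε := by linarith
    set l : ℝ := (B + ε) / (A + ε) with hl
    have hl0 : 0 < l := by positivity
    have h1 : ∫ x, |f x| * |g x| ∂μ ≤ ∫ x, ((l / 2) * f x ^ 2 + (1 / (2 * l)) * g x ^ 2) ∂μ := by
      refine integral_mono_of_nonneg (Eventually.of_forall fun x => by positivity)
        ((hf.const_mul _).add (hg.const_mul _)) (Eventually.of_forall fun x => ?_)
      have h2 : (l / 2) * f x ^ 2 + (1 / (2 * l)) * g x ^ 2 - |f x| * |g x|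
          = (1 / (2 * l)) * (l * |f x| - |g x|) ^ 2 := by
        rw [← sq_abs (f x), ← sq_abs (g x)]; field_simp; ring
      have h3 : 0 ≤ (1 / (2 * l)) * (l * |f x| - |g x|) ^ 2 := by positivity
      simp only
      linarith
    rw [integral_add (hf.const_mul _) (hg.const_mul _), integral_const_mul,
      integral_const_mul] at h1
    refine h1.trans ?_
    have h4 : (l / 2) * ∫ x, f x ^ 2 ∂μ ≤ (l / 2) * (A + ε) ^ 2 := by
      refine mul_le_mul_of_nonneg_left (hA.trans ?_) (by positivity)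
      gcongr; linarith
    have h5 : (1 / (2 * l)) * ∫ x, g x ^ 2 ∂μ ≤ (1 / (2 * l)) * (B + ε) ^ 2 := by
      refine mul_le_mul_of_nonneg_left (hB.trans ?_) (by positivity)
      gcongr; linarith
    refine (add_le_add h4 h5).trans (le_of_eq ?_)
    rw [hl]; field_simp; ring
  have hlim : Tendsto (fun ε : ℝ => (A + ε) * (B + ε)) (𝓝[>] 0) (𝓝 (A * B)) := by
    have : Continuous (fun ε : ℝ => (A + ε) * (B + ε)) := by fun_prop
    have h2 := this.tendsto 0
    simp only [add_zero] at h2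
    exact h2.mono_left nhdsWithin_le_nhds
  exact ge_of_tendsto hlim (by filter_upwards [self_mem_nhdsWithin] with ε hε using key ε hε)

/-- Cauchy-Schwarz on a measurable part of a ball. -/
lemma cs_eb (hf : Continuous f) (hg : Continuous g) {r : ℝ} {S : Set (Fin n → ℝ)} (hS : S ⊆ eb n r)
    {A B : ℝ} (hA0 : 0 ≤ A) (hB0 : 0 ≤ B) (hA : ∫ x in S, f x ^ 2 ≤ A ^ 2)
    (hB : ∫ x in S, g x ^ 2 ≤ B ^ 2) : ∫ x in S, |f x| * |g x| ≤ A * B :=
  cs_gen ((int_on_eb (hf.pow 2) r).mono_set hS) ((int_on_eb (hg.pow 2) r).mono_set hS)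
    hA0 hB0 hA hB

/-! ### cut-offs -/

/-- The radial cut-off: `1` on `eb R`, `0` off `eb (2R)`. -/
noncomputable def ct (R : ℝ) (x : Fin n → ℝ) : ℝ := cutb Finset.univ R x

lemma ct_c1 (R : ℝ) : ContDiff ℝ 1 (ct (n := n) R) := cutb_contDiff _ _

lemma ct_nonneg (R : ℝ) (x : Fin n → ℝ) : 0 ≤ ct R x := cutb_nonneg _ _ _
lemma ct_le_one (R : ℝ) (x : Fin n → ℝ) : ct R x ≤ 1 := cutb_le_one _ _ _

lemma ct_one {R : ℝ} (hR : 0 < R) (hx : x ∈ eb n R) : ct R x = 1 := by
  unfold ct cutb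
  apply th_one
  rw [div_le_one (by positivity)]
  exact hx

lemma ct_zero {R : ℝ} (hR : 0 < R) (hx : x ∉ eb n (2 * R)) : ct R x = 0 := by
  unfold ct
  apply cutb_eq_zero hR
  unfold eb at hx
  simp only [Set.mem_setOf_eq, not_le] at hx
  nlinarith [sq_nonneg R]

lemma ct_hcs {R : ℝ} (hR : 0 < R) : HasCompactSupport (ct (n := n) R) :=
  HasCompactSupport.intro (isCompact_eb (2 * R)) fun _ hx => ct_zero hR hx

lemma pd_ct_zero {R : ℝ} (hR : 0 < R) (hx : x ∉ eb n (2 * R)) (k : Fin n) : pd k (ct R) x = 0 := by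
  apply pd_eq_zero_of_notMem_tsupport
  intro hmem
  apply hx
  have : tsupport (ct (n := n) R) ⊆ eb n (2 * R) := by
    apply closure_minimal _ (isCompact_eb _).isClosed
    intro y hy
    by_contra hne
    exact hy (ct_zero hR hne)
  exact this hmem

lemma exists_gs_ct (n : ℕ) : ∃ C : ℝ, 1 ≤ C ∧ ∀ R : ℝ, 0 < R → ∀ x : Fin n → ℝ,
    gs (ct R) x ≤ C / R ^ 2 := by
  obtain ⟨C, hC1, hC⟩ := exists_th_bound
  refine ⟨n * (3 * C) ^ 2 + 1, by nlinarith [sq_nonneg (3 * C), Nat.cast_nonneg (α := ℝ) n], ?_⟩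
  intro R hR x
  have h1 : ∀ k, pd k (ct R) x ^ 2 ≤ (3 * C) ^ 2 / R ^ 2 := by
    intro k
    have := pd_cutb_bound (x := x) (i := k) hC Finset.univ hR
    rw [← sq_abs, ← div_pow]
    unfold ct
    gcongr
  unfold gs
  refine (Finset.sum_le_sum fun k _ => h1 k).trans ?_
  rw [Finset.sum_const, Finset.card_univ, Fintype.card_fin, nsmul_eq_mul, ← mul_div_assoc]
  gcongr
  linarith

end Vale.Agent.P134.H981
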