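import Vale.Agent.P134.H981.Tool
import Vale.Agent.P134.H981.Kap
import Mathlib.Analysis.SpecialFunctions.Trigonometric.ArctanDeriv

set_option linter.all false

/-! Steps 1.5 and 1.6: the identity (*) and the two truncation estimates. -/

namespace Vale.Agent.P134.H981

open Vale.Agent.P134 Vale.Agent.P134.SM Filter Topology MeasureTheory

variable {n : ℕ} {u f g : (Fin n → ℝ) → ℝ} {x : Fin n → ℝ}

/-- Standing hypotheses for the block. -/
structure KB (u : (Fin n → ℝ) → ℝ) (C : ℝ) : Prop where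
  sol : Sol u
  pos : ∀ x, 0 < gs u x
  C1 : 1 ≤ C
  en : ∀ r, 1 ≤ r → ∫ x in eb n r, psi u x ^ 2 ≤ C * r ^ 3
  st : ∀ r, 1 ≤ r → ∫ x in eb n r, wn u x ^ 2 * dn u x ≤ C * r
  de : ∀ r, 1 ≤ r → ∫ x in eb n r, defi u x ≤ C * r ^ 2
  dg : ∀ r, 1 ≤ r → ∫ x in eb n r, Real.sqrt (gs (defi u) x) ≤ C * r ^ 2

/-! ### smoothness -/

lemma wn_cd (hu : Sol u) (h : ∀ x, 0 < gs u x) (m : ℕ) : ContDiff ℝ m (wn u) :=
  contDiff_iff_contDiffAt.mpr fun x => Sol.wn_cda hu (h x) m
lemma nu_cd (hu : Sol u) (h : ∀ x, 0 < gs u x) (i : Fin n) (m : ℕ) : ContDiff ℝ m (nu u i) :=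
  contDiff_iff_contDiffAt.mpr fun x => Sol.nu_cda hu (h x) i m
lemma vs_cd (hu : Sol u) (h : ∀ x, 0 < gs u x) (m : ℕ) : ContDiff ℝ m (vs u) :=
  contDiff_iff_contDiffAt.mpr fun x => vs_cda hu (h x) m
lemma kap_cd (hu : Sol u) (h : ∀ x, 0 < gs u x) (m : ℕ) : ContDiff ℝ m (kap u) :=
  contDiff_iff_contDiffAt.mpr fun x => kap_cda hu (h x) m
lemma tau_cd (hu : Sol u) (h : ∀ x, 0 < gs u x) (a : Fin n → ℝ) (m : ℕ) :
    ContDiff ℝ m (tau a u) :=
  (dd_c2 hu a m).div (wn_cd hu h m) fun x => (wn_pos (h x)).ne'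

lemma pd_cd {m : ℕ} {f : (Fin n → ℝ) → ℝ} (hf : ∀ m : ℕ, ContDiff ℝ m f) (k : Fin n) :
    ContDiff ℝ m (pd k f) := contDiff_pd (k := m) (by exact_mod_cast hf (m + 1))

lemma dn_cont (hu : Sol u) (h : ∀ x, 0 < gs u x) : Continuous (dn u) := by
  unfold dn
  exact continuous_finsetSum _ fun i _ => continuous_finsetSum _ fun j _ =>
    (continuous_pd (by exact_mod_cast nu_cd hu h i 1)).pow 2

lemma gs_cont {f : (Fin n → ℝ) → ℝ} (hf : ContDiff ℝ 1 f) : Continuous (gs f) := by
  unfold gs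
  exact continuous_finsetSum _ fun i _ => (continuous_pd hf).pow 2

lemma gg_cont {f g : (Fin n → ℝ) → ℝ} (hf : ContDiff ℝ 1 f) (hg : ContDiff ℝ 1 g) :
    Continuous (gg f g) := by
  unfold gg
  exact continuous_finsetSum _ fun i _ => (continuous_pd hf).mul (continuous_pd hg)

lemma gg_abs_le (f g : (Fin n → ℝ) → ℝ) (x : Fin n → ℝ) :
    |gg f g x| ≤ (gs f x + gs g x) / 2 := by
  have h := gg_sq_le f g x
  have h1 := gs_nonneg f x
  have h2 := gs_nonneg g x
  apply abs_le_of_sq_le_sq _ (by positivity)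
  nlinarith [sq_nonneg (gs f x - gs g x)]

lemma gs_tau_le (hu : Sol u) (h : 0 < gs u x) {a : Fin n → ℝ} (ha : ∑ i, a i ^ 2 = 1) :
    gs (tau a u) x ≤ dn u x := by
  have e : tau a u = fun y => ∑ i, a i * nu u i y := by
    funext y
    unfold tau dd nu
    rw [Finset.sum_div]
    refine Finset.sum_congr rfl fun i _ => ?_
    ring
  have hd : ∀ i, DifferentiableAt ℝ (nu u i) x := fun i => da (Sol.nu_c2 hu h i)
  have e2 : ∀ k, pd k (tau a u) x = ∑ i, a i * pd k (nu u i) x := by
    intro k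
    rw [e, pd_sum (F := fun i y => a i * nu u i y) Finset.univ (fun i _ => (hd i).const_mul _)]
    refine Finset.sum_congr rfl fun i _ => ?_
    rw [pd_mul (f := fun _ => a i) (differentiableAt_const _) (hd i), pd_const]; ring
  unfold gs
  have e3 : ∀ k, pd k (tau a u) x ^ 2 ≤ ∑ i, pd k (nu u i) x ^ 2 := by
    intro k
    rw [e2]
    have := Finset.sum_mul_sq_le_sq_mul_sq Finset.univ a (fun i => pd k (nu u i) x)
    rw [ha, one_mul] at this
    exact this
  refine (Finset.sum_le_sum fun k _ => e3 k).trans (le_of_eq ?_)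
  unfold dn; rw [Finset.sum_comm]

lemma tau_le_one (h : 0 < gs u x) {a : Fin n → ℝ} (ha : ∑ i, a i ^ 2 = 1) : |tau a u x| ≤ 1 := by
  have hw := wn_pos h
  have h1 : dd a u x ^ 2 ≤ gs u x := by
    have := Finset.sum_mul_sq_le_sq_mul_sq Finset.univ a (fun i => pd i u x)
    rw [ha, one_mul] at this
    exact this
  have h2 : tau a u x ^ 2 ≤ 1 := by
    unfold tau
    rw [div_pow, wn_sq, div_le_one h]; exact h1
  exact (sq_le_one_iff_abs_le_one _).mp h2

/-! ### the weighted test -/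

/-- Test `div (w²∇f) = Q` with `T(f) χ²`. -/
lemma trunc_test {W f Q : (Fin n → ℝ) → ℝ} (hW : ContDiff ℝ 1 W) (hf : ContDiff ℝ 2 f)
    (hQ : ∀ x, ∑ k, pd k (fun y => W y * pd k f y) x = Q x) (hQc : Continuous Q)
    {F F' : (Fin n → ℝ) → ℝ} (hF : ContDiff ℝ 1 F) (hF' : Continuous F')
    (hpF : ∀ k x, pd k F x = F' x * pd k f x) {χ : (Fin n → ℝ) → ℝ} (hχ : ContDiff ℝ 1 χ)
    (hc : HasCompactSupport χ) :
    ∫ x, F' x * (W x * gs f x) * χ x ^ 2
      = - (∫ x, Q x * F x * χ x ^ 2) - ∫ x, 2 * F x * χ x * (W x * gg f χ x) := by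
  have hχ2 : HasCompactSupport (fun x => χ x ^ 2) := hcs_sq hc
  have hξ : ContDiff ℝ 1 (fun x => F x * χ x ^ 2) := hF.mul (hχ.pow 2)
  have hcξ : HasCompactSupport (fun x => F x * χ x ^ 2) := hχ2.mul_left
  have h1 := div_test (V := fun k y => W y * pd k f y)
    (fun k => hW.mul (contDiff_pd_one hf)) hξ hcξ
  simp_rw [hQ] at h1
  have hFd : Differentiable ℝ F := hF.differentiable (by norm_num)
  have hχd : Differentiable ℝ χ := hχ.differentiable (by norm_num)
  have e1 : ∀ x, ∑ k, W x * pd k f x * pd k (fun y => F y * χ y ^ 2) x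
      = F' x * (W x * gs f x) * χ x ^ 2 + 2 * F x * χ x * (W x * gg f χ x) := by
    intro x
    unfold gs gg
    rw [Finset.mul_sum, Finset.mul_sum, Finset.sum_mul, Finset.mul_sum, Finset.mul_sum,
      ← Finset.sum_add_distrib]
    refine Finset.sum_congr rfl fun k _ => ?_
    rw [pd_mul (hFd x) ((hχd x).fun_pow 2), pd_sq (hχd x), hpF]
    ring
  simp_rw [e1] at h1
  have hf1 : ContDiff ℝ 1 f := hf.of_le (by norm_num)
  have i1 : Integrable (fun x => F' x * (W x * gs f x) * χ x ^ 2) :=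
    ((hF'.mul (hW.continuous.mul (gs_cont hf1))).mul (hχ.continuous.pow 2)
      ).integrable_of_hasCompactSupport hχ2.mul_left
  have i2 : Integrable (fun x => 2 * F x * χ x * (W x * gg f χ x)) := by
    have : Continuous (fun x => 2 * F x * χ x * (W x * gg f χ x)) :=
      ((continuous_const.mul hF.continuous).mul hχ.continuous).mul
        (hW.continuous.mul (gg_cont hf1 hχ))
    exact this.integrable_of_hasCompactSupport (hc.mul_left).mul_right
  rw [integral_add i1 i2] at h1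
  have e2 : ∫ x, Q x * F x * χ x ^ 2 = ∫ x, Q x * (F x * χ x ^ 2) := by
    congr 1; ext x; ring
  rw [e2]; linarith

/-- Integral of a function dominated on a ball and vanishing outside. -/
lemma int_le_eb {F G : (Fin n → ℝ) → ℝ} (hG : Continuous G) {r : ℝ} (hF : Integrable F)
    (hout : ∀ x, x ∉ eb n r → F x = 0) (hle : ∀ x ∈ eb n r, F x ≤ G x) :
    ∫ x, F x ≤ ∫ x in eb n r, G x := by
  rw [← setIntegral_eq_integral_of_forall_compl_eq_zero (s := eb n r) hout]
  exact setIntegral_mono_on hF.integrableOn (int_on_eb hG r) (meas_eb r) hle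

lemma cross_le {C₀ : ℝ} (hC₀ : ∀ R : ℝ, 0 < R → ∀ x : Fin n → ℝ, gs (ct R) x ≤ C₀ / R ^ 2)
    {W f F : (Fin n → ℝ) → ℝ} (hW : Continuous W) (hW0 : ∀ x, 0 ≤ W x) (hf : ContDiff ℝ 1 f)
    (hF : Continuous F) {L : ℝ} (hL : ∀ x, |F x| ≤ L) {R : ℝ} (hR : 0 < R) {l : ℝ} (hl : 0 < l) :
    - ∫ x, 2 * F x * ct R x * (W x * gg f (ct R) x)
      ≤ ∫ x in eb n (2 * R), L * (l * (W x * gs f x) + l⁻¹ * (W x * (C₀ / R ^ 2))) := by
  rw [← integral_neg]
  have hc := ct_hcs (n := n) hR
  have hχ := ct_c1 (n := n) R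
  have hcont : Continuous (fun x => -(2 * F x * ct R x * (W x * gg f (ct R) x))) :=
    (((continuous_const.mul hF).mul hχ.continuous).mul (hW.mul (gg_cont hf hχ))).neg
  refine int_le_eb ?_ ?_ ?_ ?_
  · exact continuous_const.mul ((continuous_const.mul (hW.mul (gs_cont hf))).add
      (continuous_const.mul (hW.mul continuous_const)))
  · refine hcont.integrable_of_hasCompactSupport ?_
    exact (HasCompactSupport.mul_right (hc.mul_left)).neg
  · intro x hx
    rw [ct_zero hR hx]; ring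
  · intro x _
    have h0 : 0 ≤ L := (abs_nonneg _).trans (hL x)
    have h1 := gg_sq_le f (ct R) x
    have h2 := gs_nonneg f x
    have h3 := gs_nonneg (ct (n := n) R) x
    have h4 : |2 * gg f (ct R) x| ≤ l * gs f x + l⁻¹ * gs (ct R) x := by
      apply abs_le_of_sq_le_sq _ (by positivity)
      have h5 : l * l⁻¹ = 1 := mul_inv_cancel₀ hl.ne'
      have h6 : (l * gs f x + l⁻¹ * gs (ct R) x) ^ 2 - 4 * (l * l⁻¹) * (gs f x * gs (ct R) x)
          = (l * gs f x - l⁻¹ * gs (ct R) x) ^ 2 := by ring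
      rw [h5] at h6
      nlinarith [sq_nonneg (l * gs f x - l⁻¹ * gs (ct R) x)]
    have h7 : l⁻¹ * gs (ct R) x ≤ l⁻¹ * (C₀ / R ^ 2) :=
      mul_le_mul_of_nonneg_left (hC₀ R hR x) (by positivity)
    calc -(2 * F x * ct R x * (W x * gg f (ct R) x))
        ≤ |2 * F x * ct R x * (W x * gg f (ct R) x)| := neg_le_abs _
      _ = |F x| * |ct R x| * (W x * |2 * gg f (ct R) x|) := by
        rw [abs_mul, abs_mul, abs_mul, abs_mul, abs_mul, abs_of_nonneg (hW0 x)]; ring
      _ ≤ L * 1 * (W x * (l * gs f x + l⁻¹ * (C₀ / R ^ 2))) := by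
        have h8 : |ct R x| ≤ 1 := by
          rw [abs_of_nonneg (ct_nonneg R x)]; exact ct_le_one R x
        have h9 : |2 * gg f (ct R) x| ≤ l * gs f x + l⁻¹ * (C₀ / R ^ 2) := by linarith
        have h10 := hL x
        have h11 := hW0 x
        gcongr
      _ = L * (l * (W x * gs f x) + l⁻¹ * (W x * (C₀ / R ^ 2))) := by ring

/-- lower bound of the left side -/
lemma low_le {G : (Fin n → ℝ) → ℝ} (hG : Continuous G) (hG0 : ∀ x, 0 ≤ G x)
    {E : (Fin n → ℝ) → ℝ} (hE : Continuous E) (hE0 : ∀ x, 0 ≤ E x) {S : Set (Fin n → ℝ)}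
    (hS : MeasurableSet S) {c : ℝ} {R : ℝ} (hR : 0 < R)
    (hc : ∀ x ∈ eb n R ∩ S, c * G x ≤ E x) :
    c * ∫ x in eb n R ∩ S, G x ≤ ∫ x, E x * ct R x ^ 2 := by
  have hm : MeasurableSet (eb n R ∩ S) := (meas_eb R).inter hS
  have hi : Integrable (fun x => E x * ct R x ^ 2) :=
    (hE.mul ((ct_c1 (n := n) R).continuous.pow 2)).integrable_of_hasCompactSupport
      (hcs_sq (ct_hcs hR)).mul_left
  rw [← integral_const_mul]
  calc ∫ x in eb n R ∩ S, c * G x ≤ ∫ x in eb n R ∩ S, E x * ct R x ^ 2 := by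
        refine setIntegral_mono_on (((int_on_eb hG R).mono_set Set.inter_subset_left).const_mul c)
          hi.integrableOn hm fun x hx => ?_
        rw [ct_one hR hx.1, one_pow, mul_one]
        exact hc x hx
    _ ≤ ∫ x, E x * ct R x ^ 2 :=
        setIntegral_le_integral hi (Eventually.of_forall fun x =>
          mul_nonneg (hE0 x) (sq_nonneg _))

/-- Step 1.6 (a). -/
theorem step6a {C : ℝ} (hK : KB u C) {a : Fin n → ℝ} (ha : ∑ i, a i ^ 2 = 1)
    (hτ : ∀ x, 0 < tau a u x) :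
    ∃ C' : ℝ, 1 ≤ C' ∧ ∀ R, 1 ≤ R → ∀ t, 0 < t →
      ∫ x in eb n R ∩ {x | tau a u x ≤ t}, wn u x ^ 2 * gs (tau a u) x ≤ C' * t * R := by
  obtain ⟨C₀, hC₀1, hC₀⟩ := exists_gs_ct n
  have hu := hK.sol
  have hp := hK.pos
  have hC1 := hK.C1
  refine ⟨4 * (4 * C + 8 * C₀ * C), by nlinarith, fun R hR t ht => ?_⟩
  have hR0 : 0 < R := by linarith
  set τ := tau a u with hτd
  have cτ : ∀ m : ℕ, ContDiff ℝ m τ := fun m => tau_cd hu hp a m
  have cτ1 : ContDiff ℝ 1 τ := by exact_mod_cast cτ 1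
  have cτ2 : ContDiff ℝ 2 τ := by exact_mod_cast cτ 2
  have cw1 : ContDiff ℝ 1 (wn u) := by exact_mod_cast wn_cd hu hp 1
  have cW : ContDiff ℝ 1 (fun x => wn u x ^ 2) := cw1.pow 2
  have cdn := dn_cont hu hp
  have hden : ∀ x, 0 < t + τ x := fun x => by have := hτ x; linarith
  let F : (Fin n → ℝ) → ℝ := fun x => t * τ x / (t + τ x)
  let F' : (Fin n → ℝ) → ℝ := fun x => t ^ 2 / (t + τ x) ^ 2
  have cF : ContDiff ℝ 1 F := (contDiff_const.mul cτ1).div (contDiff_const.add cτ1)
    fun x => (hden x).ne'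
  have cF' : Continuous F' := continuous_const.div ((continuous_const.add cτ1.continuous).pow 2)
    fun x => (pow_pos (hden x) 2).ne'
  have hpF : ∀ k x, pd k F x = F' x * pd k τ x := by
    intro k x
    have d1 : DifferentiableAt ℝ τ x := cτ1.differentiable (by norm_num) x
    have h2 := (hden x).ne'
    simp only [F, F']
    rw [pd_div (d1.const_mul t) (d1.const_add t) h2,
      pd_mul (f := fun _ => t) (differentiableAt_const _) d1, pd_const,
      pd_add (f := fun _ => t) (differentiableAt_const _) d1, pd_const]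
    field_simp
    ring
  have hF0 : ∀ x, 0 ≤ F x := fun x => by
    have := (hτ x).le; have := hden x; simp only [F]; positivity
  have hFt : ∀ x, F x ≤ t := fun x => by
    simp only [F]
    rw [div_le_iff₀ (hden x)]; nlinarith [hτ x]
  have key := trunc_test cW cτ2 (fun x => Sol.div_tau hu (hp x) a)
    (Q := fun x => -(wn u x ^ 2 * dn u x * tau a u x))
    (((cW.continuous.mul cdn).mul cτ1.continuous).neg) cF cF' hpF (ct_c1 R) (ct_hcs hR0)
  -- left side
  have l1 : (1/4) * ∫ x in eb n R ∩ {x | τ x ≤ t}, wn u x ^ 2 * gs τ x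
      ≤ ∫ x, F' x * (wn u x ^ 2 * gs τ x) * ct R x ^ 2 := by
    refine low_le (E := fun x => F' x * (wn u x ^ 2 * gs τ x)) (cW.continuous.mul (gs_cont cτ1))
      (fun x => mul_nonneg (sq_nonneg _) (gs_nonneg _ _))
      (cF'.mul (cW.continuous.mul (gs_cont cτ1)))
      (fun x => mul_nonneg (by simp only [F']; positivity)
        (mul_nonneg (sq_nonneg _) (gs_nonneg _ _)))
      (measurableSet_le cτ1.continuous.measurable measurable_const) hR0 ?_
    intro x hx
    refine mul_le_mul_of_nonneg_right ?_ (mul_nonneg (sq_nonneg _) (gs_nonneg _ _))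
    simp only [F']
    rw [div_le_div_iff₀ (by norm_num) (pow_pos (hden x) 2)]
    have h1 : τ x ≤ t := hx.2
    have h2 := (hτ x).le
    nlinarith [hτ x]
  -- right side
  have r1 : - ∫ x, (-(wn u x ^ 2 * dn u x * tau a u x)) * F x * ct R x ^ 2
      ≤ ∫ x in eb n (2 * R), t * (wn u x ^ 2 * dn u x) := by
    rw [← integral_neg]
    have hcont : Continuous (fun x => -(-(wn u x ^ 2 * dn u x * tau a u x) * F x * ct R x ^ 2)) :=
      ((((cW.continuous.mul cdn).mul cτ1.continuous).neg.mul cF.continuous).mul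
        ((ct_c1 (n := n) R).continuous.pow 2)).neg
    refine int_le_eb (G := fun x => t * (wn u x ^ 2 * dn u x))
      (continuous_const.mul (cW.continuous.mul cdn)) ?_ ?_ ?_
    · exact hcont.integrable_of_hasCompactSupport
        ((HasCompactSupport.mul_left (hcs_sq (ct_hcs hR0))).neg)
    · intro x hx
      rw [ct_zero hR0 hx]; ring
    · intro x _
      have h1 := abs_le.mp (tau_le_one (hp x) ha)
      have h2 := (hτ x).le
      have h3 : 0 ≤ wn u x ^ 2 * dn u x := mul_nonneg (sq_nonneg _) (dn_nonneg _ _)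
      have h4 := ct_nonneg R x
      have h5 := ct_le_one R x
      have h6 : ct R x ^ 2 ≤ 1 := pow_le_one₀ h4 h5
      have e : -(-(wn u x ^ 2 * dn u x * tau a u x) * F x * ct R x ^ 2)
          = (wn u x ^ 2 * dn u x) * (tau a u x * F x * ct R x ^ 2) := by ring
      rw [e, mul_comm t]
      refine mul_le_mul_of_nonneg_left ?_ h3
      calc tau a u x * F x * ct R x ^ 2 ≤ 1 * t * 1 := by
            have := hF0 x; have := hFt x; have := h1.2
            gcongr
        _ = t := by ring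
  have r2 := cross_le hC₀ (W := fun x => wn u x ^ 2) (f := τ) (F := F) cW.continuous
    (fun x => sq_nonneg _) cτ1 cF.continuous (L := t)
    (fun x => by rw [abs_of_nonneg (hF0 x)]; exact hFt x) hR0 (l := 1) one_pos
  have h2R : (1:ℝ) ≤ 2 * R := by linarith
  have s1 := hK.st (2 * R) h2R
  have s2 := hK.en (2 * R) h2R
  have r1' : ∫ x in eb n (2 * R), t * (wn u x ^ 2 * dn u x) ≤ t * (C * (2 * R)) := by
    rw [integral_const_mul]; gcongr
  have iN : IntegrableOn (fun x => wn u x ^ 2 * dn u x) (eb n (2 * R)) :=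
    int_on_eb (cW.continuous.mul cdn) _
  have iψ : IntegrableOn (fun x => psi u x ^ 2) (eb n (2 * R)) :=
    int_on_eb (hu.psi_contDiff.continuous.pow 2) _
  have r2' : ∫ x in eb n (2 * R), t * (1 * (wn u x ^ 2 * gs τ x)
      + (1:ℝ)⁻¹ * (wn u x ^ 2 * (C₀ / R ^ 2))) ≤ t * (C * (2 * R) + (C₀ / R ^ 2) * (C * (2 * R) ^ 3)) := by
    calc ∫ x in eb n (2 * R), t * (1 * (wn u x ^ 2 * gs τ x)
          + (1:ℝ)⁻¹ * (wn u x ^ 2 * (C₀ / R ^ 2)))
        ≤ ∫ x in eb n (2 * R), t * (wn u x ^ 2 * dn u x + (C₀ / R ^ 2) * psi u x ^ 2) := by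
          refine setIntegral_mono_on ?_ ((iN.add (iψ.const_mul _)).const_mul _) (meas_eb _) ?_
          · exact int_on_eb (continuous_const.mul ((continuous_const.mul
              (cW.continuous.mul (gs_cont cτ1))).add (continuous_const.mul
                (cW.continuous.mul continuous_const)))) _
          · intro x _
            refine mul_le_mul_of_nonneg_left ?_ ht.le
            have h1 : wn u x ^ 2 * gs τ x ≤ wn u x ^ 2 * dn u x :=
              mul_le_mul_of_nonneg_left (gs_tau_le hu (hp x) ha) (sq_nonneg _)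
            have h2 : wn u x ^ 2 ≤ psi u x ^ 2 := by
              rw [wn_sq]; have := two_gs_le hu x; have := gs_nonneg u x; linarith
            have h3 : wn u x ^ 2 * (C₀ / R ^ 2) ≤ (C₀ / R ^ 2) * psi u x ^ 2 := by
              rw [mul_comm]; exact mul_le_mul_of_nonneg_left h2 (by positivity)
            simp only [one_mul, inv_one]
            linarith
      _ = t * ((∫ x in eb n (2 * R), wn u x ^ 2 * dn u x)
          + (C₀ / R ^ 2) * ∫ x in eb n (2 * R), psi u x ^ 2) := by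
          rw [integral_const_mul, integral_add iN (iψ.const_mul _), integral_const_mul]
      _ ≤ _ := by gcongr
  have e3 : (C₀ / R ^ 2) * (C * (2 * R) ^ 3) = 8 * C₀ * C * R := by field_simp; ring
  rw [e3] at r2'
  have tot : (1/4) * ∫ x in eb n R ∩ {x | τ x ≤ t}, wn u x ^ 2 * gs τ x
      ≤ t * (C * (2 * R)) + t * (C * (2 * R) + 8 * C₀ * C * R) := by
    linarith
  nlinarith [mul_pos ht hR0]

lemma vs_sq_le (h : 0 < gs u x) : vs u x ^ 2 ≤ rho Finset.univ x := by
  have h1 : rd u x ^ 2 ≤ rho Finset.univ x * gs u x :=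
    Finset.sum_mul_sq_le_sq_mul_sq Finset.univ x (fun i => pd i u x)
  unfold vs
  rw [div_pow, wn_sq, div_le_iff₀ h]; exact h1

lemma wn_sq_le (hu : Sol u) (x : Fin n → ℝ) : wn u x ^ 2 ≤ psi u x ^ 2 := by
  rw [wn_sq]; have := two_gs_le hu x; have := gs_nonneg u x; linarith

/-- Step 1.6 (b). -/
theorem step6b {C : ℝ} (hK : KB u C) :
    ∃ C' : ℝ, 1 ≤ C' ∧ ∀ R, 1 ≤ R → ∀ ε, 0 < ε →
      ∫ x in eb n R ∩ {x | |kap u x| ≤ ε * R}, wn u x ^ 2 * gs (kap u) x ≤ C' * ε * R ^ 3 := by
  obtain ⟨C₀, hC₀1, hC₀⟩ := exists_gs_ct n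
  have hu := hK.sol
  have hp := hK.pos
  have hC1 := hK.C1
  refine ⟨2 * (64 * C + 2 * (80 * C + 8 * C₀ * C)), by nlinarith, fun R hR ε hε => ?_⟩
  have hR0 : 0 < R := by linarith
  set L : ℝ := ε * R with hLd
  have hL0 : 0 < L := by positivity
  set κ := kap u with hκd
  have cκ1 : ContDiff ℝ 1 κ := by exact_mod_cast kap_cd hu hp 1
  have cκ2 : ContDiff ℝ 2 κ := by exact_mod_cast kap_cd hu hp 2
  have cw1 : ContDiff ℝ 1 (wn u) := by exact_mod_cast wn_cd hu hp 1
  have cW : ContDiff ℝ 1 (fun x => wn u x ^ 2) := cw1.pow 2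
  have cdn := dn_cont hu hp
  have cQ : Continuous (Qk u) := by
    unfold Qk
    exact continuous_finsetSum _ fun k _ =>
      continuous_pd (cW.mul (contDiff_pd_one cκ2))
  let F : (Fin n → ℝ) → ℝ := fun x => L * Real.arctan (κ x / L)
  let F' : (Fin n → ℝ) → ℝ := fun x => 1 / (1 + (κ x / L) ^ 2)
  have hden : ∀ x, 0 < 1 + (κ x / L) ^ 2 := fun x => by positivity
  have cF : ContDiff ℝ 1 F := contDiff_const.mul (Real.contDiff_arctan.comp (cκ1.div_const L))
  have cF' : Continuous F' := continuous_const.div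
    (continuous_const.add ((cκ1.continuous.div_const L).pow 2)) fun x => (hden x).ne'
  have hpF : ∀ k x, pd k F x = F' x * pd k κ x := by
    intro k x
    have d1 : DifferentiableAt ℝ κ x := cκ1.differentiable (by norm_num) x
    have hg : HasDerivAt (fun t : ℝ => L * Real.arctan (t / L))
        (L * (1 / (1 + (κ x / L) ^ 2) * (1 / L))) (κ x) := by
      have h1 : HasDerivAt (fun t : ℝ => t / L) (1 / L) (κ x) := (hasDerivAt_id _).div_const L
      exact ((Real.hasDerivAt_arctan _).comp (κ x) h1).const_mul L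
    have e : F = fun y => (fun t : ℝ => L * Real.arctan (t / L)) (κ y) := rfl
    rw [e, pd_comp hg.differentiableAt d1, hg.deriv]
    simp only [F']
    field_simp
  have hFL : ∀ x, |F x| ≤ 2 * L := fun x => by
    simp only [F]
    rw [abs_mul, abs_of_pos hL0, mul_comm]
    refine mul_le_mul_of_nonneg_right ?_ hL0.le
    rw [abs_le]
    have h1 := Real.neg_pi_div_two_lt_arctan (κ x / L)
    have h2 := Real.arctan_lt_pi_div_two (κ x / L)
    have h3 := Real.pi_le_four
    constructor <;> linarith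
  have key := trunc_test cW cκ2 (fun x => rfl) (Q := Qk u) cQ cF cF' hpF (ct_c1 R) (ct_hcs hR0)
  have l1 : (1/2) * ∫ x in eb n R ∩ {x | |κ x| ≤ L}, wn u x ^ 2 * gs κ x
      ≤ ∫ x, F' x * (wn u x ^ 2 * gs κ x) * ct R x ^ 2 := by
    refine low_le (E := fun x => F' x * (wn u x ^ 2 * gs κ x)) (cW.continuous.mul (gs_cont cκ1))
      (fun x => mul_nonneg (sq_nonneg _) (gs_nonneg _ _))
      (cF'.mul (cW.continuous.mul (gs_cont cκ1)))
      (fun x => mul_nonneg (by simp only [F']; positivity)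
        (mul_nonneg (sq_nonneg _) (gs_nonneg _ _)))
      (measurableSet_le (continuous_abs.comp cκ1.continuous).measurable measurable_const) hR0 ?_
    intro x hx
    refine mul_le_mul_of_nonneg_right ?_ (mul_nonneg (sq_nonneg _) (gs_nonneg _ _))
    simp only [F']
    have h1 : |κ x| ≤ L := hx.2
    have h2 : (κ x / L) ^ 2 ≤ 1 := by
      rw [div_pow, div_le_one (by positivity), ← sq_abs (κ x)]
      gcongr
    exact one_div_le_one_div_of_le (hden x) (by linarith)
  have h2R : (1:ℝ) ≤ 2 * R := by linarith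
  have s1 := hK.st (2 * R) h2R
  have s2 := hK.en (2 * R) h2R
  have s3 := hK.de (2 * R) h2R
  have s4 := hK.dg (2 * R) h2R
  have cgd : Continuous (fun x => Real.sqrt (gs (defi u) x)) :=
    Real.continuous_sqrt.comp (gs_cont ((Sol.defi_c2 hu).of_le (by norm_num)))
  have iN : IntegrableOn (fun x => wn u x ^ 2 * dn u x) (eb n (2 * R)) :=
    int_on_eb (cW.continuous.mul cdn) _
  have iψ : IntegrableOn (fun x => psi u x ^ 2) (eb n (2 * R)) :=
    int_on_eb (hu.psi_contDiff.continuous.pow 2) _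
  have iD : IntegrableOn (defi u) (eb n (2 * R)) := int_on_eb hu.defi_continuous _
  have iG : IntegrableOn (fun x => Real.sqrt (gs (defi u) x)) (eb n (2 * R)) := int_on_eb cgd _
  -- right side, first term
  have r1 : - ∫ x, Qk u x * F x * ct R x ^ 2 ≤ ∫ x in eb n (2 * R), 2 * L * |Qk u x| := by
    rw [← integral_neg]
    have hcont : Continuous (fun x => -(Qk u x * F x * ct R x ^ 2)) :=
      ((cQ.mul cF.continuous).mul ((ct_c1 (n := n) R).continuous.pow 2)).neg
    refine int_le_eb (G := fun x => 2 * L * |Qk u x|)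
      (continuous_const.mul (continuous_abs.comp cQ)) ?_ ?_ ?_
    · exact hcont.integrable_of_hasCompactSupport
        ((HasCompactSupport.mul_left (hcs_sq (ct_hcs hR0))).neg)
    · intro x hx
      rw [ct_zero hR0 hx]; ring
    · intro x _
      have h4 := ct_nonneg R x
      have h5 := ct_le_one R x
      have h6 : ct R x ^ 2 ≤ 1 := pow_le_one₀ h4 h5
      calc -(Qk u x * F x * ct R x ^ 2) ≤ |Qk u x * F x * ct R x ^ 2| := neg_le_abs _
        _ = |Qk u x| * |F x| * ct R x ^ 2 := by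
          rw [abs_mul, abs_mul, abs_of_nonneg (sq_nonneg (ct R x))]
        _ ≤ |Qk u x| * (2 * L) * 1 := by have := hFL x; gcongr
        _ = 2 * L * |Qk u x| := by ring
  have r1' : ∫ x in eb n (2 * R), 2 * L * |Qk u x| ≤ 2 * L * (32 * C * R ^ 2) := by
    rw [integral_const_mul]
    refine mul_le_mul_of_nonneg_left ?_ (by positivity)
    calc ∫ x in eb n (2 * R), |Qk u x|
        ≤ ∫ x in eb n (2 * R), (6 * defi u x + (2 * R) * (wn u x ^ 2 * dn u x)
            + Real.sqrt (gs (defi u) x)) := by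
          refine setIntegral_mono_on (int_on_eb (continuous_abs.comp cQ) _)
            (((iD.const_mul 6).add (iN.const_mul _)).add iG) (meas_eb _) ?_
          intro x hx
          have h1 := abs_Qk_le hu (hp x)
          have h2 : |vs u x| ≤ 2 * R := by
            have h3 := vs_sq_le (x := x) (hp x)
            have h4 : rho Finset.univ x ≤ (2 * R) ^ 2 := hx
            exact abs_le_of_sq_le_sq (h3.trans h4) (by positivity)
          have h5 : wn u x ^ 2 * dn u x * |vs u x| ≤ (2 * R) * (wn u x ^ 2 * dn u x) := by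
            rw [mul_comm]
            exact mul_le_mul_of_nonneg_right h2 (mul_nonneg (sq_nonneg _) (dn_nonneg _ _))
          linarith
      _ = 6 * (∫ x in eb n (2 * R), defi u x) + (2 * R) * (∫ x in eb n (2 * R), wn u x ^ 2 * dn u x)
            + ∫ x in eb n (2 * R), Real.sqrt (gs (defi u) x) := by
          have j1 : IntegrableOn (fun x => 6 * defi u x + 2 * R * (wn u x ^ 2 * dn u x))
              (eb n (2 * R)) := (iD.const_mul 6).add (iN.const_mul _)
          rw [integral_add j1 iG, integral_add (iD.const_mul 6) (iN.const_mul _),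
            integral_const_mul, integral_const_mul]
      _ ≤ 6 * (C * (2 * R) ^ 2) + (2 * R) * (C * (2 * R)) + C * (2 * R) ^ 2 := by gcongr
      _ = 32 * C * R ^ 2 := by ring
  have r2 := cross_le hC₀ (W := fun x => wn u x ^ 2) (f := κ) (F := F) cW.continuous
    (fun x => sq_nonneg _) cκ1 cF.continuous (L := 2 * L) hFL hR0 (l := R⁻¹) (by positivity)
  have r2' : ∫ x in eb n (2 * R), 2 * L * (R⁻¹ * (wn u x ^ 2 * gs κ x)
      + (R⁻¹)⁻¹ * (wn u x ^ 2 * (C₀ / R ^ 2)))
      ≤ 2 * L * (R⁻¹ * (6 * (C * (2 * R) ^ 3) + 16 * R ^ 2 * (C * (2 * R)))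
        + (C₀ / R) * (C * (2 * R) ^ 3)) := by
    calc ∫ x in eb n (2 * R), 2 * L * (R⁻¹ * (wn u x ^ 2 * gs κ x)
          + (R⁻¹)⁻¹ * (wn u x ^ 2 * (C₀ / R ^ 2)))
        ≤ ∫ x in eb n (2 * R), 2 * L * ((R⁻¹ * (16 * R ^ 2)) * (wn u x ^ 2 * dn u x)
            + (R⁻¹ * 6 + C₀ / R) * psi u x ^ 2) := by
          refine setIntegral_mono_on ?_ (((iN.const_mul _).add (iψ.const_mul _)).const_mul _)
            (meas_eb _) ?_
          · exact int_on_eb (continuous_const.mul ((continuous_const.mul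
              (cW.continuous.mul (gs_cont cκ1))).add (continuous_const.mul
                (cW.continuous.mul continuous_const)))) _
          · intro x hx
            refine mul_le_mul_of_nonneg_left ?_ (by positivity)
            have h4 : rho Finset.univ x ≤ (2 * R) ^ 2 := hx
            have h4' : ∑ i, x i ^ 2 ≤ 4 * R ^ 2 := by
              have : rho Finset.univ x = ∑ i, x i ^ 2 := rfl
              rw [← this]; linarith
            have hd := dn_nonneg u x
            have h1 : gs κ x ≤ 6 + 16 * R ^ 2 * dn u x := by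
              have := gs_kap_le hu (hp x)
              have h5 : 4 * (∑ i, x i ^ 2) * dn u x ≤ 16 * R ^ 2 * dn u x := by
                refine mul_le_mul_of_nonneg_right ?_ hd; linarith
              linarith
            have h2 := wn_sq_le hu x
            have h3 : wn u x ^ 2 * gs κ x ≤ 6 * psi u x ^ 2 + 16 * R ^ 2 * (wn u x ^ 2 * dn u x) := by
              calc wn u x ^ 2 * gs κ x ≤ wn u x ^ 2 * (6 + 16 * R ^ 2 * dn u x) :=
                    mul_le_mul_of_nonneg_left h1 (sq_nonneg _)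
                _ = 6 * wn u x ^ 2 + 16 * R ^ 2 * (wn u x ^ 2 * dn u x) := by ring
                _ ≤ _ := by linarith
            have h6 : (R⁻¹)⁻¹ * (wn u x ^ 2 * (C₀ / R ^ 2)) ≤ (C₀ / R) * psi u x ^ 2 := by
              have : (R⁻¹)⁻¹ * (wn u x ^ 2 * (C₀ / R ^ 2)) = (C₀ / R) * wn u x ^ 2 := by
                field_simp
              rw [this]
              exact mul_le_mul_of_nonneg_left h2 (by positivity)
            have h7 : R⁻¹ * (wn u x ^ 2 * gs κ x)
                ≤ R⁻¹ * (6 * psi u x ^ 2 + 16 * R ^ 2 * (wn u x ^ 2 * dn u x)) :=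
              mul_le_mul_of_nonneg_left h3 (by positivity)
            have h8 : (R⁻¹ * (16 * R ^ 2)) * (wn u x ^ 2 * dn u x) + (R⁻¹ * 6 + C₀ / R) * psi u x ^ 2
                = R⁻¹ * (6 * psi u x ^ 2 + 16 * R ^ 2 * (wn u x ^ 2 * dn u x))
                  + (C₀ / R) * psi u x ^ 2 := by ring

            rw [h8]
            exact add_le_add h7 h6
      _ = 2 * L * ((R⁻¹ * (16 * R ^ 2)) * (∫ x in eb n (2 * R), wn u x ^ 2 * dn u x)
            + (R⁻¹ * 6 + C₀ / R) * ∫ x in eb n (2 * R), psi u x ^ 2) := by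
          rw [integral_const_mul, integral_add (iN.const_mul _) (iψ.const_mul _),
            integral_const_mul, integral_const_mul]
      _ ≤ 2 * L * ((R⁻¹ * (16 * R ^ 2)) * (C * (2 * R)) + (R⁻¹ * 6 + C₀ / R) * (C * (2 * R) ^ 3)) := by
          gcongr
      _ = _ := by ring
  have e3 : R⁻¹ * (6 * (C * (2 * R) ^ 3) + 16 * R ^ 2 * (C * (2 * R))) + (C₀ / R) * (C * (2 * R) ^ 3)
      = (80 * C + 8 * C₀ * C) * R ^ 2 := by field_simp; ring
  rw [e3] at r2'
  have tot : (1/2) * ∫ x in eb n R ∩ {x | |κ x| ≤ L}, wn u x ^ 2 * gs κ x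
      ≤ 2 * L * (32 * C * R ^ 2) + 2 * L * ((80 * C + 8 * C₀ * C) * R ^ 2) := by
    linarith
  rw [hLd] at tot ⊢
  nlinarith [mul_pos hε (pow_pos hR0 3)]

end Vale.Agent.P134.H981
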